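import Crest.Agent.N337.Pe.Av
import Crest.Agent.N337.Gas.Abs
import Crest.Agent.N337.Pc.Forms

-- ▼ part N337/Pe/Basic
section

/-!
# Row 337, move (c): the two-colour system of a weight `ρ`

The pair `(A, B)` of disjoint sets has weight `ρ (A ∪ B)`.  `cs ρ A ψ` is the sum of `ψ B` given
`A`, `nu ρ` the weight of `A`, `tt ρ` the chain `A → A ∪ B →` fair subset, `En ρ` its energy.
-/

set_option autoImplicit false
set_option linter.unusedSectionVars false

namespace Crest.Agent.N337.Pe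

open Finset Crest.Agent.N337.Op

variable {G : Type} [Fintype G] [DecidableEq G]

/-- sum over the second colour given the first. -/
def cs (ρ : Finset G → ℝ) (A : Finset G) (ψ : Finset G → ℝ) : ℝ :=
  ∑ R, if A ⊆ R then ρ R * ψ (R \ A) else 0

/-- weight of the first colour. -/
def nu (ρ : Finset G → ℝ) (A : Finset G) : ℝ := cs ρ A fun _ => 1

/-- sum over the pairs. -/
def EE (ρ : Finset G → ℝ) (φ : Finset G → Finset G → ℝ) : ℝ := ∑ A, cs ρ A (φ A)

/-- one step of the chain. -/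
noncomputable def tt (ρ F : Finset G → ℝ) (A : Finset G) : ℝ :=
  cs ρ A (fun B => bar F (A ∪ B)) / nu ρ A

/-- energy of the chain. -/
noncomputable def En (ρ F : Finset G → ℝ) : ℝ := ∑ R, ρ R * vr F R

variable {ρ F H : Finset G → ℝ} {A : Finset G} {ψ ψ' : Finset G → ℝ}
  {φ φ' : Finset G → Finset G → ℝ}

lemma cs_mono (hρ : ∀ R, 0 ≤ ρ R) (h : ∀ B, Disjoint A B → ψ B ≤ ψ' B) : cs ρ A ψ ≤ cs ρ A ψ' :=
  sum_le_sum fun R _ => by
    split_ifs; exacts [mul_le_mul_of_nonneg_left (h _ disjoint_sdiff) (hρ R), le_rfl]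


lemma cs_add (ρ : Finset G → ℝ) (A : Finset G) (ψ ψ' : Finset G → ℝ) :
    cs ρ A (fun B => ψ B + ψ' B) = cs ρ A ψ + cs ρ A ψ' := by
  simp only [cs, ← sum_add_distrib]
  exact sum_congr rfl fun R _ => by split_ifs <;> ring

lemma cs_mul (ρ : Finset G → ℝ) (A : Finset G) (c : ℝ) (ψ : Finset G → ℝ) :
    cs ρ A (fun B => c * ψ B) = c * cs ρ A ψ := by
  simp only [cs, mul_sum]
  exact sum_congr rfl fun R _ => by split_ifs <;> ring

lemma cs_const (ρ : Finset G → ℝ) (A : Finset G) (c : ℝ) : cs ρ A (fun _ => c) = nu ρ A * c := by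
  rw [nu, mul_comm, ← cs_mul]; simp only [mul_one]

lemma cs_nn (hρ : ∀ R, 0 ≤ ρ R) (h : ∀ B, 0 ≤ ψ B) : 0 ≤ cs ρ A ψ := by
  have := cs_mono (A := A) (ψ := fun _ => 0) hρ fun B _ => h B
  rwa [cs_const, mul_zero] at this

lemma nu_nn (hρ : ∀ R, 0 ≤ ρ R) (A : Finset G) : 0 ≤ nu ρ A := cs_nn hρ fun _ => zero_le_one

lemma cs_union (ρ : Finset G → ℝ) (A : Finset G) (ψ : Finset G → ℝ) :
    cs ρ A (fun B => ψ (A ∪ B)) = ∑ R, (if A ⊆ R then ρ R else 0) * ψ R :=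
  sum_congr rfl fun R _ => by
    split_ifs with h
    · simp only [union_sdiff_of_subset h]
    · rw [zero_mul]

lemma nu_eq (ρ : Finset G → ℝ) (A : Finset G) : nu ρ A = ∑ R, if A ⊆ R then ρ R else 0 := by
  simp only [nu, cs, mul_one]

/-- moving a point from the second colour to the first. -/
lemma cs_pt (ρ : Finset G → ℝ) (A : Finset G) (c : G → ℝ) (ψ : Finset G → ℝ) :
    cs ρ A (fun B => (∑ g ∈ B, c g) * ψ (A ∪ B)) =
      ∑ g ∈ Aᶜ, c g * cs ρ (insert g A) fun B => ψ (insert g A ∪ B) := by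
  simp only [cs_union, mul_sum]
  rw [sum_comm]
  refine sum_congr rfl fun R _ => ?_
  split_ifs with h
  · have : R \ A = Aᶜ.filter (· ∈ R) := by ext; simp [and_comm]
    beta_reduce
    rw [union_sdiff_of_subset h, this, sum_filter, sum_mul, mul_sum]
    refine sum_congr rfl fun g _ => ?_
    simp only [insert_subset_iff, h, and_true]
    split_ifs <;> ring
  · exact (sum_eq_zero fun g _ => by simp [insert_subset_iff, h]).symm

lemma EE_eq (ρ : Finset G → ℝ) (φ : Finset G → Finset G → ℝ) :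
    EE ρ φ = ∑ R, ρ R * ∑ A ∈ R.powerset, φ A (R \ A) := by
  simp only [EE, cs]
  rw [sum_comm]
  refine sum_congr rfl fun R _ => ?_
  rw [← sum_filter, mul_sum]
  exact sum_congr (by ext; simp) fun _ _ => rfl

lemma EE_swap (ρ : Finset G → ℝ) (φ : Finset G → Finset G → ℝ) :
    EE ρ φ = EE ρ fun A B => φ B A := by
  simp only [EE_eq, fun R => sum_pw_swap R φ]

lemma EE_mono (hρ : ∀ R, 0 ≤ ρ R) (h : ∀ A B, Disjoint A B → φ A B ≤ φ' A B) :
    EE ρ φ ≤ EE ρ φ' := sum_le_sum fun A _ => cs_mono hρ (h A)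

lemma EE_add (ρ : Finset G → ℝ) (φ φ' : Finset G → Finset G → ℝ) :
    EE ρ (fun A B => φ A B + φ' A B) = EE ρ φ + EE ρ φ' := by
  simp only [EE, cs_add, sum_add_distrib]

lemma EE_mul (ρ : Finset G → ℝ) (c : ℝ) (φ : Finset G → Finset G → ℝ) :
    EE ρ (fun A B => c * φ A B) = c * EE ρ φ := by
  simp only [EE, cs_mul, mul_sum]

lemma EE_fst (ρ F : Finset G → ℝ) : EE ρ (fun A _ => F A) = ex (nu ρ) F := by
  simp only [EE, cs_const, ex]

lemma EE_un (ρ : Finset G → ℝ) (φ : Finset G → Finset G → ℝ) :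
    EE ρ (fun A B => φ A (A ∪ B)) = ∑ R, ρ R * ∑ A ∈ R.powerset, φ A R := by
  rw [EE_eq]
  exact sum_congr rfl fun R _ => congrArg _ (sum_congr rfl fun A hA => by
    rw [union_sdiff_of_subset (mem_powerset.1 hA)])

lemma En_eq_EE (ρ F : Finset G → ℝ) : En ρ F = EE ρ fun A B => (F A - bar F (A ∪ B)) ^ 2 :=
  (EE_un ρ fun A R => (F A - bar F R) ^ 2).symm

lemma nu_tt (hρ : ∀ R, 0 ≤ ρ R) (F : Finset G → ℝ) (A : Finset G) :
    nu ρ A * tt ρ F A = cs ρ A fun B => bar F (A ∪ B) := by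
  by_cases h : nu ρ A = 0
  · rw [h, zero_mul, cs_union]
    rw [nu_eq, sum_eq_zero_iff_of_nonneg fun R _ => by split_ifs; exacts [hρ R, le_rfl]] at h
    exact (sum_eq_zero fun R hR => by rw [h R hR, zero_mul]).symm
  · exact mul_div_cancel₀ _ h

lemma cs_jen (hρ : ∀ R, 0 ≤ ρ R) {f : ℝ → ℝ} (hf : ConvexOn ℝ Set.univ f) (F : Finset G → ℝ)
    (A : Finset G) : nu ρ A * f (tt ρ F A) ≤ cs ρ A fun B => f (bar F (A ∪ B)) := by
  rw [tt, cs_union ρ A (bar F), cs_union ρ A fun R => f (bar F R), nu_eq]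
  exact jen univ _ _ (fun R _ => by split_ifs; exacts [hρ R, le_rfl]) hf

/-- one step moves a monotone weight from the first colour to the union. -/
lemma tt_step (hρ : ∀ R, 0 ≤ ρ R) {f : ℝ → ℝ} (hf : ConvexOn ℝ Set.univ f) (hf0 : ∀ x, 0 ≤ f x)
    {χ : Finset G → ℝ} (h0 : ∀ A, 0 ≤ χ A) (hχ : ∀ A R, A ⊆ R → χ A ≤ χ R) (F : Finset G → ℝ) :
    ex (nu ρ) (fun A => χ A * f (tt ρ F A)) ≤ EE ρ fun A B => χ (A ∪ B) * f (F A) := by
  calc _ ≤ EE ρ fun A B => χ (A ∪ B) * f (bar F (A ∪ B)) := sum_le_sum fun A _ => by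
        rw [mul_left_comm]
        refine (mul_le_mul_of_nonneg_left (cs_jen hρ hf F A) (h0 A)).trans ?_
        rw [← cs_mul]
        exact cs_mono hρ fun B _ => mul_le_mul_of_nonneg_right (hχ _ _ subset_union_left) (hf0 _)
    _ ≤ _ := by
        rw [EE_un ρ fun _ R => χ R * f (bar F R), EE_un ρ fun A R => χ R * f (F A)]
        refine sum_le_sum fun R _ => mul_le_mul_of_nonneg_left ?_ (hρ R)
        rw [sum_pw_const, ← mul_sum, mul_left_comm]
        exact mul_le_mul_of_nonneg_left (bar_jen F R hf) (h0 R)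

lemma tt_ctr (hρ : ∀ R, 0 ≤ ρ R) {f : ℝ → ℝ} (hf : ConvexOn ℝ Set.univ f) (hf0 : ∀ x, 0 ≤ f x)
    (F : Finset G → ℝ) : ex (nu ρ) (fun A => f (tt ρ F A)) ≤ ex (nu ρ) fun A => f (F A) := by
  have := tt_step hρ hf hf0 (χ := fun _ => 1) (fun _ => zero_le_one) (fun _ _ _ => le_rfl) F
  simp only [one_mul] at this
  rwa [EE_fst] at this

lemma ip_tt (hρ : ∀ R, 0 ≤ ρ R) (F H : Finset G → ℝ) :
    ip (nu ρ) F (tt ρ H) = ∑ R, ρ R * (2 ^ R.card * (bar F R * bar H R)) := by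
  have : ip (nu ρ) F (tt ρ H) = EE ρ fun A B => F A * bar H (A ∪ B) :=
    sum_congr rfl fun A _ => by rw [cs_mul, ← nu_tt hρ]; ring
  rw [this, EE_un ρ fun A R => F A * bar H R]
  simp only [← sum_mul, ← mul_bar, mul_assoc]

lemma ip_tt_symm (hρ : ∀ R, 0 ≤ ρ R) (F H : Finset G → ℝ) :
    ip (nu ρ) F (tt ρ H) = ip (nu ρ) (tt ρ F) H := by
  rw [ip_comm _ (tt ρ F), ip_tt hρ, ip_tt hρ]; simp only [mul_comm (bar F _)]

lemma ex_tt (hρ : ∀ R, 0 ≤ ρ R) (F : Finset G → ℝ) : ex (nu ρ) (tt ρ F) = ex (nu ρ) F := by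
  have : ex (nu ρ) (tt ρ F) = EE ρ fun A B => bar F (A ∪ B) := sum_congr rfl fun A _ => nu_tt hρ F A
  rw [this, EE_un ρ fun _ R => bar F R, ← EE_fst, EE_eq]
  simp only [sum_pw_const, mul_bar]

lemma nsq_nu (ρ F : Finset G → ℝ) : nsq (nu ρ) F = ∑ R, ρ R * ∑ A ∈ R.powerset, F A ^ 2 := by
  rw [nsq_eq_ex, ← EE_fst, EE_eq]

lemma En_eq (hρ : ∀ R, 0 ≤ ρ R) (F : Finset G → ℝ) :
    En ρ F = nsq (nu ρ) F - ip (nu ρ) F (tt ρ F) := by
  rw [ip_tt hρ, nsq_nu, En, ← sum_sub_distrib]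
  refine sum_congr rfl fun R _ => ?_
  have := sum_sq_sub F R 0
  simp only [sub_zero] at this
  rw [this]; ring

lemma En_nn (hρ : ∀ R, 0 ≤ ρ R) (F : Finset G → ℝ) : 0 ≤ En ρ F :=
  sum_nonneg fun R _ => mul_nonneg (hρ R) (vr_nn F R)

lemma En_le (hρ : ∀ R, 0 ≤ ρ R) (F : Finset G → ℝ) : En ρ F ≤ nsq (nu ρ) F := by
  rw [nsq_nu]
  exact sum_le_sum fun R _ => mul_le_mul_of_nonneg_left (by simpa using vr_le F R 0) (hρ R)

lemma En_le_add (hρ : ∀ R, 0 ≤ ρ R) {x : ℝ} (hx : 0 < x) (F H : Finset G → ℝ) :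
    En ρ F ≤ (1 + x) * En ρ H + (1 + 1 / x) * nsq (nu ρ) fun A => F A - H A := by
  rw [nsq_nu, En, En, mul_sum, mul_sum, ← sum_add_distrib]
  refine sum_le_sum fun R _ => ?_
  rw [mul_left_comm, mul_left_comm (1 + 1 / x), ← mul_add]
  refine mul_le_mul_of_nonneg_left ((vr_le F R (bar H R)).trans ?_) (hρ R)
  rw [vr, mul_sum, mul_sum, ← sum_add_distrib]
  refine sum_le_sum fun A _ => ?_
  have : (1 + x) * (H A - bar H R) ^ 2 + (1 + 1 / x) * (F A - H A) ^ 2 - (F A - bar H R) ^ 2 =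
      (x * (H A - bar H R) - (F A - H A)) ^ 2 / x := by field_simp; ring
  have := div_nonneg (sq_nonneg (x * (H A - bar H R) - (F A - H A))) hx.le
  linarith

/-- the two colours carry almost the same value. -/
lemma EE_sub_le (hρ : ∀ R, 0 ≤ ρ R) (F : Finset G → ℝ) :
    EE ρ (fun A B => (F A - F B) ^ 2) ≤ 4 * En ρ F := by
  have h := En_eq_EE ρ F
  have h' := EE_swap ρ fun A B => (F A - bar F (A ∪ B)) ^ 2
  calc _ ≤ EE ρ fun A B => 2 * (F A - bar F (A ∪ B)) ^ 2 + 2 * (F B - bar F (B ∪ A)) ^ 2 :=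
        EE_mono hρ fun A B _ => by
          rw [union_comm B A]; nlinarith [sq_nonneg (F A + F B - 2 * bar F (A ∪ B))]
    _ = _ := by rw [EE_add, EE_mul, EE_mul, ← h', ← h]; ring

/-- Efron–Stein on the good unions. -/
lemma En_le_good (hρ : ∀ R, 0 ≤ ρ R) (gd : Finset G → Prop) [DecidablePred gd]
    (hd : ∀ A R, A ⊆ R → gd R → gd A) (F : Finset G → ℝ) :
    En ρ F ≤ 1 / 2 * EE ρ (fun A B => ∑ g ∈ B,
      (if gd (insert g A) then F (insert g A) - F A else 0) ^ 2) +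
      EE ρ fun A B => (if gd (A ∪ B) then 0 else 1) * F A ^ 2 := by
  rw [EE_un ρ fun A R => (if gd R then 0 else 1) * F A ^ 2, EE_eq, mul_sum, ← sum_add_distrib]
  refine sum_le_sum fun R _ => ?_
  rw [mul_left_comm, ← mul_add]
  refine mul_le_mul_of_nonneg_left ?_ (hρ R)
  by_cases h : gd R
  · simp only [h, if_true, zero_mul, sum_const_zero, add_zero]
    refine (vr_es F R).trans (le_of_eq (congrArg _ (sum_congr rfl fun A hA => ?_)))
    refine sum_congr rfl fun g hg => ?_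
    rw [if_pos (hd _ R (insert_subset (mem_sdiff.1 hg).1 (mem_powerset.1 hA)) h)]
  · simp only [h, if_false, one_mul]
    have h1 := vr_le F R 0
    simp only [sub_zero] at h1
    exact h1.trans (le_add_of_nonneg_left (by positivity))

/-- **response of one step**: a bound for linear statistics of `B` bounds the gradient of `tt F`. -/
lemma grad_tt (hρ : ∀ R, 0 ≤ ρ R) {K : ℝ} (hK : 0 < K) (F : Finset G → ℝ) (A : Finset G)
    (gd : G → Prop) [DecidablePred gd] (c : G → ℝ)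
    (hc : ∀ g, c g = if gd g then tt ρ F (insert g A) - tt ρ F A else 0) {m : ℝ}
    (h : cs ρ A (fun B => (∑ g ∈ B, c g - m) ^ 2) ≤ K * cs ρ A fun B => ∑ g ∈ B, c g ^ 2) :
    cs ρ A (fun B => ∑ g ∈ B, c g ^ 2) ≤ K * cs ρ A fun B => (bar F (A ∪ B) - tt ρ F A) ^ 2 := by
  set t := tt ρ F A with ht
  have e0 : ∀ A', cs ρ A' (fun B => bar F (A' ∪ B) - t) = nu ρ A' * (tt ρ F A' - t) := fun A' => by
    simp only [sub_eq_add_neg]
    rw [cs_add, cs_const, ← nu_tt hρ]; ring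
  have e1 : cs ρ A (fun B => ∑ g ∈ B, c g ^ 2) =
      cs ρ A fun B => (∑ g ∈ B, c g) * (bar F (A ∪ B) - t) := by
    have := cs_pt ρ A (fun g => c g ^ 2) fun _ => 1
    simp only [mul_one] at this
    rw [this, cs_pt ρ A c fun R => bar F R - t]
    refine sum_congr rfl fun g _ => ?_
    rw [e0, cs_const, hc g]
    split_ifs <;> ring
  have e2 : cs ρ A (fun B => (∑ g ∈ B, c g) * (bar F (A ∪ B) - t)) =
      cs ρ A fun B => (∑ g ∈ B, c g - m) * (bar F (A ∪ B) - t) := by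
    have : (fun B => (∑ g ∈ B, c g) * (bar F (A ∪ B) - t)) = fun B =>
        (∑ g ∈ B, c g - m) * (bar F (A ∪ B) - t) + m * (bar F (A ∪ B) - t) := by
      funext B; ring
    rw [this, cs_add, cs_mul, e0, ← ht, sub_self, mul_zero, mul_zero, add_zero]
  have e3 : cs ρ A (fun B => 2 * K * ((∑ g ∈ B, c g - m) * (bar F (A ∪ B) - t))) ≤
      cs ρ A fun B => (∑ g ∈ B, c g - m) ^ 2 + K ^ 2 * (bar F (A ∪ B) - t) ^ 2 :=
    cs_mono hρ fun B _ => by nlinarith [sq_nonneg (∑ g ∈ B, c g - m - K * (bar F (A ∪ B) - t))]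
  rw [cs_mul, cs_add, cs_mul, ← e2, ← e1] at e3
  refine le_of_mul_le_mul_left ?_ hK
  nlinarith

lemma EE_bar_tt (hρ : ∀ R, 0 ≤ ρ R) (F : Finset G → ℝ) :
    EE ρ (fun A B => (bar F (A ∪ B) - tt ρ F A) ^ 2) ≤ En ρ F := by
  have e1 : EE ρ (fun A B => bar F (A ∪ B) ^ 2) = ip (nu ρ) F (tt ρ F) := by
    rw [EE_un ρ fun _ R => bar F R ^ 2, ip_tt hρ]; simp only [sum_pw_const, sq]
  have e2 : EE ρ (fun A B => (bar F (A ∪ B) - tt ρ F A) ^ 2) =
      EE ρ (fun A B => bar F (A ∪ B) ^ 2) - nsq (nu ρ) (tt ρ F) := by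
    rw [EE, EE, nsq, ← sum_sub_distrib]
    refine sum_congr rfl fun A _ => ?_
    have : (fun B => (bar F (A ∪ B) - tt ρ F A) ^ 2) = fun B => bar F (A ∪ B) ^ 2 +
        (-2 * tt ρ F A * bar F (A ∪ B) + tt ρ F A ^ 2) := by funext B; ring
    rw [this, cs_add, cs_add, cs_mul, cs_const, ← nu_tt hρ]; ring
  have := nsq_nn (nu_nn hρ) fun A => F A - tt ρ F A
  rw [nsq_sub] at this
  rw [e2, e1, En_eq hρ]; linarith

end Crest.Agent.N337.Pe
end

-- ▼ part N337/Pe/Dich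
section

/-!
# Row 337, move (c): the dichotomy

`Gd 0 ⊆ Gd 1 ⊆ … ⊆ Gd 27` is a ladder of down-closed good sets.  Under `Hyp` a gap `1/20` on the
mean-zero functions supported on `Gd 0` improves to `1/10`.
-/

set_option autoImplicit false
set_option linter.unusedSectionVars false

namespace Crest.Agent.N337.Pe

open Finset Crest.Agent.N337.Op

variable {G : Type} [Fintype G] [DecidableEq G]

open Classical in
/-- indicator of the complement of the rung `i`. -/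
noncomputable def bad (Gd : ℕ → Finset G → Prop) (i : ℕ) (A : Finset G) : ℝ :=
  if Gd i A then 0 else 1

/-- an increasing family of down-closed sets. -/
structure Lad (Gd : ℕ → Finset G → Prop) : Prop where
  down : ∀ i A R, A ⊆ R → Gd i R → Gd i A
  mono : ∀ i A, Gd i A → Gd (i + 1) A

/-- the three inputs: the union climbs one rung, the second colour is on the bottom rung, linear
statistics of the second colour are almost Poisson. -/
structure Hyp (ρ : Finset G → ℝ) (Gd : ℕ → Finset G → Prop) : Prop where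
  nn : ∀ R, 0 ≤ ρ R
  h1 : ∀ i ≤ 26, ∀ A, Gd i A → cs ρ A (fun B => bad Gd (i + 1) (A ∪ B)) ≤ 1 / 10 ^ 9 * nu ρ A
  h2 : ∀ A, Gd 26 A → cs ρ A (bad Gd 0) ≤ 1 / 10 ^ 9 * nu ρ A
  tk : ∀ A (a : G → ℝ), Gd 27 A → (∀ g, a g ≠ 0 → g ∉ A ∧ Gd 27 (insert g A)) → ∃ m,
    cs ρ A (fun B => (∑ g ∈ B, a g - m) ^ 2) ≤ 6 / 5 * cs ρ A fun B => ∑ g ∈ B, a g ^ 2

/-- gap `t` on the mean-zero functions supported on the bottom rung. -/
def Phi (ρ : Finset G → ℝ) (Gd : ℕ → Finset G → Prop) (t : ℝ) : Prop :=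
  ∀ f : Finset G → ℝ, (∀ A, ¬ Gd 0 A → f A = 0) → ex (nu ρ) f = 0 → t * nsq (nu ρ) f ≤ En ρ f

variable {ρ : Finset G → ℝ} {Gd : ℕ → Finset G → Prop}

lemma bad_nn (i : ℕ) (A : Finset G) : 0 ≤ bad Gd i A := by unfold bad; split_ifs <;> norm_num

lemma bad_le (i : ℕ) (A : Finset G) : bad Gd i A ≤ 1 := by unfold bad; split_ifs <;> norm_num

lemma bad_of {i : ℕ} {A : Finset G} (h : Gd i A) : bad Gd i A = 0 := if_pos h

lemma bad_of_not {i : ℕ} {A : Finset G} (h : ¬ Gd i A) : bad Gd i A = 1 := if_neg h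

lemma Lad.le (hL : Lad Gd) {i j : ℕ} (h : i ≤ j) {A : Finset G} (hA : Gd i A) : Gd j A := by
  induction j, h using Nat.le_induction with
  | base => exact hA
  | succ j _ ih => exact hL.mono _ _ ih

lemma Lad.bad_mono (hL : Lad Gd) (i : ℕ) (A R : Finset G) (h : A ⊆ R) :
    bad Gd i A ≤ bad Gd i R := by
  by_cases hR : Gd i R
  · rw [bad_of hR, bad_of (hL.down i A R h hR)]
  · rw [bad_of_not hR]; exact bad_le _ _

/-- a rare event seen from a good first colour. -/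
lemma EE_rare (hρ : ∀ R, 0 ≤ ρ R) {i : ℕ} {ε : ℝ} (hε : 0 ≤ ε) {χ : Finset G → Finset G → ℝ}
    (h1 : ∀ A B, χ A B ≤ 1) (h : ∀ A, Gd i A → cs ρ A (χ A) ≤ ε * nu ρ A) {φ : Finset G → ℝ}
    (h0 : ∀ A, 0 ≤ φ A) : EE ρ (fun A B => χ A B * φ A) ≤
      ε * ex (nu ρ) φ + ex (nu ρ) fun A => bad Gd i A * φ A := by
  rw [← ex_mul, ← ex_add]
  refine sum_le_sum fun A _ => ?_
  simp only [mul_comm (χ A _)]
  rw [cs_mul]
  have n0 := nu_nn hρ A
  by_cases hA : Gd i A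
  · rw [bad_of hA]
    have := mul_le_mul_of_nonneg_left (h A hA) (h0 A)
    linarith
  · rw [bad_of_not hA]
    have := mul_le_mul_of_nonneg_left (cs_mono (A := A) hρ fun B _ => h1 A B) (h0 A)
    rw [cs_const] at this
    have := mul_nonneg n0 (mul_nonneg hε (h0 A))
    linarith

lemma iter_ctr (hρ : ∀ R, 0 ≤ ρ R) {ψ : ℝ → ℝ} (hψ : ConvexOn ℝ Set.univ ψ) (h0 : ∀ x, 0 ≤ ψ x)
    (f : Finset G → ℝ) (m : ℕ) :
    ex (nu ρ) (fun A => ψ ((tt ρ)^[m] f A)) ≤ ex (nu ρ) fun A => ψ (f A) := by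
  induction m with
  | zero => exact le_rfl
  | succ m ih => rw [Function.iterate_succ_apply']; exact (tt_ctr hρ hψ h0 _).trans ih

/-- after `m` steps the function is concentrated on the rung `m`. -/
lemma iter_bad (hL : Lad Gd) (hH : Hyp ρ Gd) {ψ : ℝ → ℝ} (hψ : ConvexOn ℝ Set.univ ψ)
    (h0 : ∀ x, 0 ≤ ψ x) (hz : ψ 0 = 0) {f : Finset G → ℝ} (hf : ∀ A, ¬ Gd 0 A → f A = 0) {m : ℕ}
    (hm : m ≤ 26) : ex (nu ρ) (fun A => bad Gd m A * ψ ((tt ρ)^[m] f A)) ≤
      m * (1 / 10 ^ 9) * ex (nu ρ) fun A => ψ (f A) := by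
  induction m with
  | zero =>
    simp only [Nat.cast_zero, zero_mul]
    refine (sum_eq_zero fun A _ => ?_).le
    by_cases hA : Gd 0 A
    · simp [bad_of hA]
    · simp [hf A hA, hz]
  | succ m ih =>
    rw [Function.iterate_succ_apply']
    refine (tt_step hH.nn hψ h0 (bad_nn _) (hL.bad_mono _) _).trans ?_
    refine (EE_rare hH.nn (by norm_num) (fun A B => bad_le _ _) (hH.h1 m (by omega))
      fun A => h0 _).trans ?_
    have := iter_ctr hH.nn hψ h0 f m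
    have := ih (by omega)
    push_cast
    linarith

/-- the energy decrement. -/
lemma En_tt (hL : Lad Gd) (hH : Hyp ρ Gd) {i : ℕ} (hi : i ≤ 26) (F : Finset G → ℝ) :
    En ρ (tt ρ F) ≤ 3 / 5 * En ρ F + (1 / 10 ^ 9 * nsq (nu ρ) (tt ρ F) +
      ex (nu ρ) fun A => bad Gd i A * tt ρ F A ^ 2) := by
  classical
  have h1 := En_le_good hH.nn (Gd (i + 1)) (hL.down _) (tt ρ F)
  have h2 := EE_rare hH.nn (by norm_num) (fun A B => bad_le _ _) (hH.h1 i hi)
    fun A => sq_nonneg (tt ρ F A)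
  have h3 : EE ρ (fun A B => ∑ g ∈ B,
      (if Gd (i + 1) (insert g A) then tt ρ F (insert g A) - tt ρ F A else 0) ^ 2) ≤
      EE ρ fun A B => 6 / 5 * (bar F (A ∪ B) - tt ρ F A) ^ 2 := sum_le_sum fun A _ => by
    rw [cs_mul]
    by_cases hA : Gd (i + 1) A
    · obtain ⟨m, hm⟩ := hH.tk A (fun g => if Gd (i + 1) (insert g A) then
        tt ρ F (insert g A) - tt ρ F A else 0) (hL.le (by omega) hA) fun g hg => by
          refine ⟨fun h => hg ?_, hL.le (i := i + 1) (by omega) ?_⟩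
          · simp [insert_eq_of_mem h]
          · by_contra h; exact hg (if_neg h)
      exact grad_tt hH.nn (by norm_num) F A _ _ (fun _ => rfl) hm
    · have : ∀ g, ¬ Gd (i + 1) (insert g A) := fun g h => hA (hL.down _ _ _ (subset_insert _ _) h)
      simp only [this, if_false, ne_eq, OfNat.ofNat_ne_zero, not_false_eq_true, zero_pow,
        sum_const_zero, cs_const, mul_zero]
      exact mul_nonneg (by norm_num) (cs_nn hH.nn fun _ => sq_nonneg _)
  rw [EE_mul] at h3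
  have h4 := EE_bar_tt hH.nn F
  have h5 : EE ρ (fun A B => (if Gd (i + 1) (A ∪ B) then 0 else 1) * tt ρ F A ^ 2) =
      EE ρ fun A B => bad Gd (i + 1) (A ∪ B) * tt ρ F A ^ 2 := rfl
  rw [nsq_eq_ex]
  linarith

lemma iter_En (hL : Lad Gd) (hH : Hyp ρ Gd) {f : Finset G → ℝ} (hf : ∀ A, ¬ Gd 0 A → f A = 0)
    {m : ℕ} (hm : m ≤ 26) :
    En ρ ((tt ρ)^[m] f) ≤ ((3 / 5) ^ m + 70 / 10 ^ 9) * nsq (nu ρ) f := by
  have N0 := nsq_nn (nu_nn hH.nn) f
  induction m with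
  | zero => have := En_le hH.nn f; simp only [Function.iterate_zero, id, pow_zero]; linarith
  | succ m ih =>
    have h1 := En_tt hL hH hm ((tt ρ)^[m] f)
    have h2 := iter_bad hL hH cvx_sq (fun _ => sq_nonneg _) (by norm_num) hf hm
    have h3 := iter_ctr hH.nn cvx_sq (fun _ => sq_nonneg _) f (m + 1)
    have h4 := ih (by omega)
    rw [Function.iterate_succ_apply'] at h2 h3 ⊢
    rw [← nsq_eq_ex] at h2 h3
    rw [← nsq_eq_ex] at h3
    have h5 : ((m + 1 : ℕ) : ℝ) ≤ 26 := by exact_mod_cast hm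
    have := mul_le_mul_of_nonneg_right h5 N0
    rw [pow_succ]
    nlinarith

lemma iter_low (hρ : ∀ R, 0 ≤ ρ R) {f : Finset G → ℝ} (h : En ρ f < 1 / 10 * nsq (nu ρ) f)
    (m : ℕ) : (81 / 100) ^ m * nsq (nu ρ) f ≤ nsq (nu ρ) ((tt ρ)^[m] f) ∧
      81 / 100 * nsq (nu ρ) ((tt ρ)^[m] f) ≤ nsq (nu ρ) ((tt ρ)^[m + 1] f) := by
  have N0 : 0 < nsq (nu ρ) f := by linarith [En_nn hρ f]
  induction m with
  | zero =>
    refine ⟨by simp, ?_⟩
    have h1 := Op.cs (nu_nn hρ) f (tt ρ f)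
    rw [En_eq hρ] at h
    refine le_of_mul_le_mul_left ?_ N0
    show _ * (_ * nsq (nu ρ) f) ≤ _ * nsq (nu ρ) (tt ρ f)
    nlinarith
  | succ m ih =>
    obtain ⟨h1, h2⟩ := ih
    have p0 : 0 < (81 / 100 : ℝ) ^ m * nsq (nu ρ) f := by positivity
    refine ⟨by rw [pow_succ]; linarith, ?_⟩
    simp only [Function.iterate_succ_apply'] at h2 ⊢
    set v := (tt ρ)^[m] f
    have h3 := Op.cs (nu_nn hρ) v (tt ρ (tt ρ v))
    rw [ip_tt_symm hρ, ip_self] at h3
    refine le_of_mul_le_mul_left ?_ (p0.trans_le h1)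
    nlinarith [mul_le_mul_of_nonneg_right h2 (nsq_nn (nu_nn hρ) (tt ρ v))]

/-- the closest mean-zero function supported on the bottom rung. -/
lemma exists_proj {ν : Finset G → ℝ} (hν : ∀ A, 0 ≤ ν A) (u : Finset G → ℝ) {K : ℝ} (hK : 0 ≤ K)
    (h : ex ν (fun A => (1 - bad Gd 0 A) * u A) ^ 2 ≤ ex ν (fun A => 1 - bad Gd 0 A) * K) :
    ∃ v : Finset G → ℝ, (∀ A, ¬ Gd 0 A → v A = 0) ∧ ex ν v = 0 ∧
      nsq ν (fun A => v A - u A) ≤ ex ν (fun A => bad Gd 0 A * u A ^ 2) + K := by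
  set γ := ex ν fun A => 1 - bad Gd 0 A with hγ
  set M := ex ν fun A => (1 - bad Gd 0 A) * u A with hM
  have γ0 : 0 ≤ γ := ex_nn hν fun A => sub_nonneg.2 (bad_le _ _)
  have hc : M / γ * γ = M ∧ (M / γ) ^ 2 * γ ≤ K := by
    rcases γ0.eq_or_lt with e | e
    · rw [← e, zero_mul] at h
      rw [← e, mul_zero, mul_zero]
      exact ⟨(pow_eq_zero_iff two_ne_zero |>.1 (h.antisymm (sq_nonneg _))).symm, hK⟩
    · refine ⟨div_mul_cancel₀ _ e.ne', ?_⟩
      rw [show (M / γ) ^ 2 * γ = M ^ 2 / γ by field_simp, div_le_iff₀' e]; exact h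
  refine ⟨fun A => (1 - bad Gd 0 A) * u A - M / γ * (1 - bad Gd 0 A), fun A hA => ?_, ?_, ?_⟩
  · simp [bad_of_not hA]
  · rw [ex_sub, ex_mul, hc.1, sub_self]
  · refine le_trans (le_of_eq ?_) (add_le_add le_rfl hc.2)
    generalize M / γ = c
    rw [hγ, ← ex_mul, ← ex_add, nsq_eq_ex]
    congr 1; funext A
    by_cases hA : Gd 0 A
    · simp only [bad_of hA]; ring
    · simp only [bad_of_not hA]; ring

lemma sq_ex_le {ν : Finset G → ℝ} (hν : ∀ A, 0 ≤ ν A) (i : ℕ) (v : Finset G → ℝ) :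
    ex ν (fun A => (1 - bad Gd i A) * v A) ^ 2 ≤ ex ν (fun A => 1 - bad Gd i A) * nsq ν v := by
  have := Op.cs hν (fun A => 1 - bad Gd i A) v
  rw [ip_eq_ex, nsq_eq_ex] at this
  refine this.trans (le_of_eq ?_)
  congr 2; funext A; unfold bad; split_ifs <;> ring

/-- **dichotomy.** -/
theorem dich (hL : Lad Gd) (hH : Hyp ρ Gd) (hΦ : Phi ρ Gd (1 / 20)) : Phi ρ Gd (1 / 10) := by
  intro f hf hf0
  by_contra hlt
  have hν := nu_nn hH.nn
  have hlow := (iter_low hH.nn (not_le.1 hlt) 26).1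
  have N0 : 0 < nsq (nu ρ) f := by linarith [En_nn hH.nn f, not_le.1 hlt]
  have hx := iter_En hL hH hf (le_refl 26)
  have hb := iter_bad hL hH cvx_sq (fun _ => sq_nonneg _) (by norm_num) hf (le_refl 26)
  have hl := iter_bad hL hH cvx_abs (fun _ => abs_nonneg _) (by norm_num) hf (le_refl 26)
  have hn := iter_ctr hH.nn cvx_sq (fun _ => sq_nonneg _) f 26
  have hu : ex (nu ρ) ((tt ρ)^[26] f) = 0 := by
    rw [← hf0]; generalize 26 = m
    induction m with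
    | zero => rfl
    | succ m ih => rw [Function.iterate_succ_apply', ex_tt hH.nn, ih]
  rw [← nsq_eq_ex] at hb hn
  rw [← nsq_eq_ex] at hn
  set u := (tt ρ)^[26] f
  set N := nsq (nu ρ) f
  have x0 := En_nn hH.nn u
  -- the mass of `u` off the bottom rung
  have hs : ex (nu ρ) (fun A => bad Gd 0 A * u A ^ 2) ≤ 54 / 10 ^ 9 * N + 8 * En ρ u := by
    have h1 := EE_rare hH.nn (by norm_num) (χ := fun _ B => bad Gd 0 B) (fun A B => bad_le _ _)
      hH.h2 fun A => sq_nonneg (u A)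
    have h2 := EE_sub_le hH.nn u
    have h3 : EE ρ (fun A B => bad Gd 0 B * u B ^ 2) ≤
        EE ρ fun A B => 2 * (bad Gd 0 B * u A ^ 2) + 2 * (u A - u B) ^ 2 :=
      EE_mono hH.nn fun A B _ => by
        unfold bad; split_ifs <;> nlinarith [sq_nonneg (u A - u B), sq_nonneg (2 * u A - u B)]
    rw [EE_add, EE_mul, EE_mul, EE_swap, EE_fst _ fun A => bad Gd 0 A * u A ^ 2] at h3
    rw [← nsq_eq_ex] at h1
    push_cast at hb
    linarith
  set s := ex (nu ρ) fun A => bad Gd 0 A * u A ^ 2 with hsd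
  have s0 : 0 ≤ s := ex_nn hν fun A => mul_nonneg (bad_nn _ _) (sq_nonneg _)
  set γ := ex (nu ρ) fun A => 1 - bad Gd 0 A with hγd
  have γ0 : 0 ≤ γ := ex_nn hν fun A => sub_nonneg.2 (bad_le _ _)
  have hγ : ex (nu ρ) (fun A => 1 - bad Gd 26 A) ≤ 101 / 100 * γ := by
    have h1 := EE_rare hH.nn (by norm_num) (χ := fun _ B => bad Gd 0 B) (fun A B => bad_le _ _)
      hH.h2 (φ := fun A => 1 - bad Gd 26 A) fun A => sub_nonneg.2 (bad_le _ _)
    have h2 : ex (nu ρ) (fun A => bad Gd 26 A * (1 - bad Gd 26 A)) = 0 :=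
      sum_eq_zero fun A _ => by beta_reduce; unfold bad; split_ifs <;> simp
    have h3 : EE ρ (fun A _ => 1 - bad Gd 26 A) ≤
        EE ρ fun A B => bad Gd 0 B * (1 - bad Gd 26 A) + (1 - bad Gd 0 B) :=
      EE_mono hH.nn fun A B _ => by unfold bad; split_ifs <;> norm_num
    rw [EE_add, EE_swap ρ fun _ B => 1 - bad Gd 0 B, EE_fst, EE_fst] at h3
    linarith
  have hM : ex (nu ρ) (fun A => (1 - bad Gd 0 A) * u A) ^ 2 ≤ γ * (1 / 10 ^ 9 * N + 21 / 10 * s) := by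
    have h1 := sq_ex_le (Gd := Gd) hν 26 fun A => bad Gd 0 A * u A
    have e1 : nsq (nu ρ) (fun A => bad Gd 0 A * u A) = s := by
      rw [nsq_eq_ex]; congr 1; funext A; unfold bad; split_ifs <;> ring
    have h2 := sq_ex_le (Gd := Gd) hν 0 fun A => |f A|
    have e2 : (fun A => (1 - bad Gd 0 A) * |f A|) = fun A => |f A| := by
      funext A
      by_cases hA : Gd 0 A
      · simp [bad_of hA]
      · simp [hf A hA]
    have e3 : nsq (nu ρ) (fun A => |f A|) = N := by simp only [nsq, sq_abs, N]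
    have e4 : ex (nu ρ) (fun A => (1 - bad Gd 0 A) * u A) = -(ex (nu ρ) (fun A => bad Gd 26 A * u A) +
        ex (nu ρ) fun A => (1 - bad Gd 26 A) * (bad Gd 0 A * u A)) := by
      rw [eq_neg_iff_add_eq_zero, ← ex_add, ← ex_add, ← hu]
      congr 1; funext A
      by_cases hA : Gd 0 A
      · simp [bad_of hA, bad_of (hL.le (Nat.zero_le 26) hA)]
      · rw [bad_of_not hA]; ring
    have h3 : |ex (nu ρ) fun A => bad Gd 26 A * u A| ≤ ex (nu ρ) fun A => bad Gd 26 A * |u A| :=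
      (abs_sum_le_sum_abs _ _).trans (le_of_eq (sum_congr rfl fun A _ => by
        rw [abs_mul, abs_mul, abs_of_nonneg (hν A), abs_of_nonneg (bad_nn _ _)]))
    have h4 := pow_le_pow_left₀ (abs_nonneg _) (h3.trans hl) 2
    rw [e1] at h1
    rw [e2, e3] at h2
    rw [sq_abs, mul_pow] at h4
    rw [e4, neg_sq]
    have h5 := mul_le_mul_of_nonneg_right hγ s0
    have h6 := mul_nonneg γ0 N0.le
    have h7 := mul_nonneg γ0 s0
    push_cast at h4
    nlinarith [sq_nonneg (ex (nu ρ) (fun A => bad Gd 26 A * u A) -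
      ex (nu ρ) fun A => (1 - bad Gd 26 A) * (bad Gd 0 A * u A))]
  obtain ⟨v, hv, hv0, hw⟩ := exists_proj hν u (by positivity) hM
  have h1 := hΦ v hv hv0
  have h2 := En_le_add hH.nn one_pos v u
  have h3 := nsq_add_le hν v fun A => u A - v A
  rw [nsq_sub_comm] at h3
  simp only [add_sub_cancel] at h3
  replace h3 : nsq (nu ρ) u ≤ _ := h3
  rw [← hsd] at hw
  norm_num at hlow hx
  linarith

end Crest.Agent.N337.Pe
end

-- ▼ part N337/Pe/Thin
section

/-!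
# Row 337, move (c): the gap by thinning

The hypotheses are stable under thinning; a strongly thinned system has a gap; a weak thinning
loses little and the dichotomy repairs the loss.
-/

set_option autoImplicit false
set_option linter.unusedSectionVars false

namespace Crest.Agent.N337.Pe

open Finset Crest.Agent.N337.Op

variable {G : Type} [Fintype G] [DecidableEq G] {Ξ : Type} [Fintype Ξ]

/-- sum over the environments in which `A` is available. -/
def sm (W : Ξ → ℝ) (O : Ξ → Finset G) (A : Finset G) (φ : Ξ → ℝ) : ℝ :=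
  ∑ ξ, if A ⊆ O ξ then W ξ * φ ξ else 0

/-- mixture of independent thinnings: each available `g` has a colour with weight `D g` each. -/
def mix (W : Ξ → ℝ) (O : Ξ → Finset G) (D : G → ℝ) (R : Finset G) : ℝ :=
  sm W O R fun ξ => wt D (O ξ) R

variable {W : Ξ → ℝ} {O : Ξ → Finset G} {D : G → ℝ} {ρ : Finset G → ℝ}
  {Gd : ℕ → Finset G → Prop} {t : ℝ}

lemma mix_nn (hW : ∀ ξ, 0 ≤ W ξ) (hD : ∀ g, 0 ≤ D g ∧ D g ≤ 1) (R : Finset G) : 0 ≤ mix W O D R :=
  sum_nonneg fun ξ _ => by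
    split_ifs; exacts [mul_nonneg (hW ξ) (wt_nn (fun g _ => hD g) _), le_rfl]

lemma sum_mix (W : Ξ → ℝ) (O : Ξ → Finset G) (D : G → ℝ) (φ : Finset G → ℝ) :
    ∑ R, mix W O D R * φ R = ∑ ξ, W ξ * av D (O ξ) φ := by
  simp only [mix, sm, sum_mul, av, mul_sum]
  rw [sum_comm]
  refine sum_congr rfl fun ξ _ => ?_
  simp only [ite_mul, zero_mul, ← sum_filter, mul_assoc]
  exact sum_congr (by ext; simp) fun _ _ => rfl

theorem cs_mix (W : Ξ → ℝ) (O : Ξ → Finset G) (D : G → ℝ) (A : Finset G) (ψ : Finset G → ℝ) :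
    cs (mix W O D) A ψ = (∏ g ∈ A, D g) * sm W O A fun ξ => av D (O ξ \ A) ψ := by
  have := sum_mix W O D fun R => if A ⊆ R then ψ (R \ A) else 0
  simp only [mul_ite, mul_zero] at this
  rw [cs, this, sm, mul_sum]
  refine sum_congr rfl fun ξ _ => ?_
  split_ifs with h
  · rw [av_sup D h]; ring
  · rw [av_congr (ψ' := fun _ => 0) fun R hR => if_neg fun h' => h (h'.trans hR), av_const]; ring

/-- thinning. -/
def th (t : ℝ) (ρ : Finset G → ℝ) : Finset G → ℝ := mix ρ id fun _ => t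

lemma cs_th (t : ℝ) (ρ : Finset G → ℝ) (A : Finset G) (ψ : Finset G → ℝ) :
    cs (th t ρ) A ψ = t ^ A.card * cs ρ A fun B => av (fun _ => t) B ψ := by
  rw [th, cs_mix, prod_const]; rfl

lemma nu_th (t : ℝ) (ρ : Finset G → ℝ) (A : Finset G) : nu (th t ρ) A = t ^ A.card * nu ρ A := by
  simp only [nu, cs_th, av_const]

lemma Hyp.th (hL : Lad Gd) (hH : Hyp ρ Gd) (h0 : 0 ≤ t) (h1 : t ≤ 1) : Hyp (th t ρ) Gd := by
  have key : ∀ (A : Finset G) (χ : Finset G → ℝ), (∀ B B', B' ⊆ B → χ B' ≤ χ B) →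
      cs ρ A χ ≤ 1 / 10 ^ 9 * nu ρ A → cs (Pe.th t ρ) A χ ≤ 1 / 10 ^ 9 * nu (Pe.th t ρ) A := by
    intro A χ hχ h
    rw [cs_th, nu_th, mul_left_comm]
    refine mul_le_mul_of_nonneg_left ((cs_mono hH.nn fun B _ => ?_).trans h) (pow_nonneg h0 _)
    exact (av_mono (fun _ _ => ⟨h0, h1⟩) (hχ B)).trans_eq (av_const _ _ _)
  refine ⟨mix_nn hH.nn fun _ => ⟨h0, h1⟩, fun i hi A hA => ?_, fun A hA => ?_, fun A a hA ha => ?_⟩
  · exact key A _ (fun B B' h => hL.bad_mono _ _ _ (union_subset_union_right h)) (hH.h1 i hi A hA)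
  · exact key A _ (fun B B' h => hL.bad_mono _ _ _ h) (hH.h2 A hA)
  · obtain ⟨m, hm⟩ := hH.tk A a hA ha
    refine ⟨t * m, ?_⟩
    rw [cs_th, cs_th, mul_left_comm]
    refine mul_le_mul_of_nonneg_left ?_ (pow_nonneg h0 _)
    have e1 : (fun B : Finset G => av (fun _ => t) B fun B' => (∑ g ∈ B', a g - t * m) ^ 2) =
        fun B => t * (1 - t) * ∑ g ∈ B, a g ^ 2 + t ^ 2 * (∑ g ∈ B, a g - m) ^ 2 := by
      funext B; rw [av_sq, ← sum_mul, ← sum_mul]; ring
    have e2 : (fun B : Finset G => av (fun _ => t) B fun B' => ∑ g ∈ B', a g ^ 2) =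
        fun B => t * ∑ g ∈ B, a g ^ 2 := by
      funext B; rw [av_sum, ← sum_mul, mul_comm]
    rw [e1, e2, cs_add, cs_mul, cs_mul, cs_mul]
    have x0 : 0 ≤ cs ρ A fun B => ∑ g ∈ B, a g ^ 2 :=
      cs_nn hH.nn fun _ => sum_nonneg fun _ _ => sq_nonneg _
    have := mul_le_mul_of_nonneg_left hm (sq_nonneg t)
    nlinarith [mul_nonneg (mul_nonneg h0 (sub_nonneg.2 h1)) x0]

lemma En_th (hρ : ∀ R, 0 ≤ ρ R) (h0 : 0 ≤ t) (h1 : t ≤ 1) (f : Finset G → ℝ) :
    En (th t ρ) f ≤ En ρ f + (1 - t ^ Fintype.card G) * nsq (nu ρ) f := by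
  rw [En, th, sum_mix, En, nsq_nu, mul_sum, ← sum_add_distrib]
  refine sum_le_sum fun R _ => ?_
  rw [mul_left_comm, ← mul_add]
  refine mul_le_mul_of_nonneg_left ?_ (hρ R)
  set S := ∑ A ∈ R.powerset, f A ^ 2 with hS
  have S0 : 0 ≤ S := sum_nonneg fun _ _ => sq_nonneg _
  have e := av_sup (fun _ => t) (Subset.refl R) fun _ => S
  rw [av_const, prod_const] at e
  have h2 : av (fun _ => t) R (fun R' => vr f R' + if R ⊆ R' then S else 0) ≤ vr f R + S := by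
    refine (av_mono (fun _ _ => ⟨h0, h1⟩) fun R' hR => ?_).trans_eq (av_const _ _ _)
    split_ifs with h
    · rw [hR.antisymm h]
    · have h3 := vr_le f R' 0
      have h4 : ∑ A ∈ R'.powerset, f A ^ 2 ≤ S :=
        sum_le_sum_of_subset_of_nonneg (powerset_mono.2 hR) fun _ _ _ => sq_nonneg _
      simp only [sub_zero] at h3
      linarith [vr_nn f R]
  have h3 : av (fun _ => t) R (fun R' => vr f R' + if R ⊆ R' then S else 0) =
      av (fun _ => t) R (vr f) + av (fun _ => t) R fun R' => if R ⊆ R' then S else 0 := by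
    simp only [av, mul_add, sum_add_distrib]
  have h4 := mul_le_mul_of_nonneg_right (pow_le_pow_of_le_one h0 h1 (card_le_univ R)) S0
  simp only [id]
  linarith

lemma nsq_le_add {Ω : Type} [Fintype Ω] {ν : Ω → ℝ} (hν : ∀ A, 0 ≤ ν A) (f v : Ω → ℝ) :
    nsq ν f ≤ 11 / 10 * nsq ν v + 11 * nsq ν fun A => v A - f A := by
  simp only [nsq, mul_sum, ← sum_add_distrib]
  refine sum_le_sum fun A _ => ?_
  nlinarith [mul_nonneg (hν A) (sq_nonneg (v A / 10 + (v A - f A)))]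

/-- a weak thinning loses little. -/
lemma Phi.of_th (hρ : ∀ R, 0 ≤ ρ R) (h0 : 0 ≤ t) (h1 : t ≤ 1)
    (ht : 999 / 1000 ≤ t ^ Fintype.card G) (h : Phi (th t ρ) Gd (1 / 10)) : Phi ρ Gd (1 / 20) := by
  intro f hf hf0
  have hρ' : ∀ R, 0 ≤ th t ρ R := mix_nn hρ fun _ => ⟨h0, h1⟩
  have hν := nu_nn hρ
  have hp : ∀ A : Finset G, 999 / 1000 ≤ t ^ A.card ∧ t ^ A.card ≤ 1 := fun A =>
    ⟨ht.trans (pow_le_pow_of_le_one h0 h1 (card_le_univ A)), pow_le_one₀ h0 h1⟩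
  have hc : ∀ φ : Finset G → ℝ, (∀ A, 0 ≤ φ A) → 999 / 1000 * ex (nu ρ) φ ≤ ex (nu (th t ρ)) φ :=
    fun φ hφ => by
      simp only [ex, mul_sum, nu_th]
      exact sum_le_sum fun A _ => by
        nlinarith [mul_le_mul_of_nonneg_right (hp A).1 (mul_nonneg (hν A) (hφ A))]
  have N0 := nsq_nn hν f
  have hb : ∀ A, bad Gd 0 A * f A = 0 := fun A => by
    by_cases hA : Gd 0 A
    · rw [bad_of hA, zero_mul]
    · rw [hf A hA, mul_zero]
  have hM : ex (nu (th t ρ)) (fun A => (1 - bad Gd 0 A) * f A) ^ 2 ≤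
      ex (nu (th t ρ)) (fun A => 1 - bad Gd 0 A) * (1 / 10 ^ 5 * nsq (nu ρ) f) := by
    have h2 := sq_ex_le (Gd := Gd) hν 0 fun A => (t ^ A.card - 1) * f A
    have e : ex (nu ρ) (fun A => (1 - bad Gd 0 A) * ((t ^ A.card - 1) * f A)) =
        ex (nu (th t ρ)) fun A => (1 - bad Gd 0 A) * f A := by
      rw [← add_zero (ex (nu ρ) _), ← hf0, ← ex_add]
      refine sum_congr rfl fun A _ => ?_
      rw [nu_th]; linear_combination nu ρ A * hb A
    have h3 : nsq (nu ρ) (fun A => (t ^ A.card - 1) * f A) ≤ 1 / 10 ^ 6 * nsq (nu ρ) f := by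
      rw [nsq_eq_ex, nsq_eq_ex, ← ex_mul]
      refine ex_mono hν fun A => ?_
      rw [mul_pow]
      exact mul_le_mul_of_nonneg_right (by nlinarith [hp A]) (sq_nonneg _)
    have h4 := hc (fun A => 1 - bad Gd 0 A) fun A => sub_nonneg.2 (bad_le _ _)
    have h5 : 0 ≤ ex (nu ρ) fun A => 1 - bad Gd 0 A := ex_nn hν fun A => sub_nonneg.2 (bad_le _ _)
    rw [e] at h2
    nlinarith [mul_le_mul_of_nonneg_left h3 h5, mul_le_mul_of_nonneg_right h4 N0, mul_nonneg h5 N0]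
  obtain ⟨v, hv, hv0, hw⟩ := exists_proj (nu_nn hρ') f (by positivity) hM
  have e : ex (nu (th t ρ)) (fun A => bad Gd 0 A * f A ^ 2) = 0 :=
    sum_eq_zero fun A _ => by beta_reduce; rw [sq, ← mul_assoc (bad _ _ _), hb]; ring
  have h2 := h v hv hv0
  have h3 := En_le_add hρ' (x := 1 / 2) (by norm_num) v f
  have h4 := nsq_le_add (nu_nn hρ') f v
  have h5 := En_th hρ h0 h1 f
  have h6 := hc (fun A => f A ^ 2) fun _ => sq_nonneg _
  rw [← nsq_eq_ex, ← nsq_eq_ex] at h6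
  have h7 := mul_le_mul_of_nonneg_right ht N0
  rw [e] at hw
  norm_num at h3
  linarith

/-- a dilute system has a gap. -/
lemma Phi.of_dilute (hρ : ∀ R, 0 ≤ ρ R)
    (h : ∀ A, cs ρ A (fun B => ∑ _g ∈ B, (1 : ℝ)) ≤ 1 / 2 * nu ρ A) : Phi ρ Gd (1 / 10) := by
  intro f _ hf0
  have hν := nu_nn hρ
  have h1 : nsq (nu ρ) f ≤ nsq (nu ρ) fun A => f A - f ∅ := by
    rw [nsq_sub, ip_const, hf0]
    linarith [nsq_nn hν fun _ => f ∅]
  have h2 : nsq (nu ρ) (fun A => f A - f ∅) ≤ 2 * EE ρ fun A B => (f A - f B) ^ 2 := by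
    rw [nsq, EE, mul_sum]
    refine sum_le_sum fun A _ => ?_
    have h3 : cs ρ A (fun _ => (f A - f ∅) ^ 2) ≤
        cs ρ A fun B => (f A - f B) ^ 2 + (f A - f ∅) ^ 2 * ∑ _g ∈ B, (1 : ℝ) :=
      cs_mono hρ fun B _ => by
        rcases B.eq_empty_or_nonempty with rfl | hB
        · simp
        · have : (1 : ℝ) ≤ ∑ _g ∈ B, (1 : ℝ) := by simpa using hB.card_pos
          nlinarith [sq_nonneg (f A - f B), sq_nonneg (f A - f ∅)]
    rw [cs_const, cs_add, cs_mul] at h3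
    nlinarith [mul_le_mul_of_nonneg_left (h A) (sq_nonneg (f A - f ∅))]
  linarith [EE_sub_le hρ f, En_nn hρ f]

/-- **the gap.** -/
theorem gap (hL : Lad Gd) (hH : Hyp ρ Gd) : Phi ρ Gd (1 / 10) := by
  set n : ℝ := (Fintype.card G : ℝ) with hn
  have n0 : 0 ≤ n := Nat.cast_nonneg _
  set t : ℝ := 1 - 1 / (1000 * (n + 1)) with ht
  have d0 : 0 < 1 / (1000 * (n + 1)) := by positivity
  have d1 : n * (1 / (1000 * (n + 1))) ≤ 1 / 1000 := by
    rw [mul_one_div, div_le_div_iff₀ (by positivity) (by norm_num)]; linarith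
  have d2 : 1 / (1000 * (n + 1)) ≤ 1 := by rw [div_le_one (by positivity)]; linarith
  have h0 : 0 ≤ t := by linarith
  have h1 : t < 1 := by linarith
  have h2 : 999 / 1000 ≤ t ^ Fintype.card G := by
    have := one_add_mul_le_pow (a := -(1 / (1000 * (n + 1)))) (by linarith) (Fintype.card G)
    rw [← hn, ← sub_eq_add_neg, ← ht] at this
    linarith
  have key : ∀ k : ℕ, ∀ ρ : Finset G → ℝ, Hyp ρ Gd →
      (∀ A, t ^ k * cs ρ A (fun B => ∑ _g ∈ B, (1 : ℝ)) ≤ 1 / 2 * nu ρ A) → Phi ρ Gd (1 / 10) := by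
    intro k
    induction k with
    | zero => exact fun ρ hH h => Phi.of_dilute hH.nn (by simpa using h)
    | succ k ih =>
      refine fun ρ hH h => dich hL hH (Phi.of_th hH.nn h0 h1.le h2 (ih _ (hH.th hL h0 h1.le) ?_))
      intro A
      have e : (fun B : Finset G => av (fun _ => t) B fun B' => ∑ _g ∈ B', (1 : ℝ)) =
          fun B => t * ∑ _g ∈ B, (1 : ℝ) := by
        funext B; rw [av_sum, ← sum_mul, mul_comm]
      rw [cs_th, nu_th, e, cs_mul]
      have := mul_le_mul_of_nonneg_left (h A) (pow_nonneg h0 A.card)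
      rw [pow_succ] at this
      linarith
  obtain ⟨k, hk⟩ := exists_pow_lt_of_lt_one (x := 1 / (2 * (n + 1))) (by positivity) h1
  refine key k ρ hH fun A => ?_
  have h3 : cs ρ A (fun B => ∑ _g ∈ B, (1 : ℝ)) ≤ cs ρ A fun _ => n :=
    cs_mono hH.nn fun B _ => by simpa [hn] using card_le_univ B
  rw [cs_const] at h3
  have h4 : t ^ k * n ≤ 1 / 2 := by
    rw [lt_div_iff₀ (by positivity)] at hk
    nlinarith [pow_nonneg h0 k]
  nlinarith [mul_le_mul_of_nonneg_left h3 (pow_nonneg h0 k),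
    mul_le_mul_of_nonneg_left h4 (nu_nn hH.nn A)]

end Crest.Agent.N337.Pe
end

-- ▼ part N337/Pe/Main
section

/-!
# Row 337, move (c): the peel theorem and the response bound

* `peel`: `Var H ≤ 11 D_G(H) + 200 E[(ν(S) + 1_S)(H - c)²]`, `D_G` = edges ending in `Gd 1`;
* `Hyp.of_cl`: the hypotheses for a mixture, read in the conditional laws `cl W O A`;
* `resp`: `D_G(E[F|A]) ≤ 2 D^hi(F) + 2κ E Var(F|A)`;
* `peel_joint`: both together on a space carrying the environment and the first colour.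
-/

set_option autoImplicit false
set_option linter.unusedSectionVars false

namespace Crest.Agent.N337.Pe

open Finset Crest.Agent.N337.Op

variable {G : Type} [Fintype G] [DecidableEq G] {ρ : Finset G → ℝ} {Gd : ℕ → Finset G → Prop}

open Classical in
/-- birth-death form restricted to the edges whose upper end is in `gd`. -/
noncomputable def DG (ν : Finset G → ℝ) (gd : Finset G → Prop) (H : Finset G → ℝ) : ℝ :=
  ex ν fun A => if gd A then ∑ g ∈ A, (H A - H (A.erase g)) ^ 2 else 0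



open Classical in
lemma DG_birth (ν : Finset G → ℝ) (gd : Finset G → Prop) (H : Finset G → ℝ) : DG ν gd H =
    ∑ A, ∑ g ∈ Aᶜ, ν (insert g A) * (if gd (insert g A) then H (insert g A) - H A else 0) ^ 2 := by
  rw [← Gas.gnz ν fun A g => (if gd (insert g A) then H (insert g A) - H A else 0) ^ 2]
  refine sum_congr rfl fun A _ => congrArg _ ?_
  rw [sum_congr rfl fun g hg => by rw [insert_erase hg]]
  by_cases h : gd A <;> simp [h]

open Classical in
lemma DG_nu (ρ : Finset G → ℝ) (gd : Finset G → Prop) (H : Finset G → ℝ) : DG (nu ρ) gd H =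
    EE ρ fun A B => ∑ g ∈ B, (if gd (insert g A) then H (insert g A) - H A else 0) ^ 2 := by
  rw [DG_birth]
  refine sum_congr rfl fun A _ => ?_
  have := cs_pt ρ A (fun g => (if gd (insert g A) then H (insert g A) - H A else 0) ^ 2) fun _ => 1
  simp only [mul_one] at this
  rw [this]
  exact sum_congr rfl fun g _ => mul_comm _ _

/-- **the peel theorem.** -/
theorem peel (hL : Lad Gd) (hH : Hyp ρ Gd) (hν : Pr (nu ρ)) (H : Finset G → ℝ) (c : ℝ) :
    var (nu ρ) H ≤ 11 * DG (nu ρ) (Gd 1) H +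
      200 * ex (nu ρ) fun A => (ex (nu ρ) (bad Gd 0) + bad Gd 0 A) * (H A - c) ^ 2 := by
  classical
  set σ := ex (nu ρ) (bad Gd 0) with hσ
  set N := nsq (nu ρ) fun A => H A - c with hN
  set b := ex (nu ρ) fun A => bad Gd 0 A * (H A - c) ^ 2 with hb
  have e0 : ex (nu ρ) (fun A => (σ + bad Gd 0 A) * (H A - c) ^ 2) = σ * N + b := by
    rw [hN, hb, nsq_eq_ex, ← ex_mul, ← ex_add]; simp only [add_mul]
  have σ0 : 0 ≤ σ := ex_nn hν.nn (bad_nn 0)
  have N0 : 0 ≤ N := nsq_nn hν.nn _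
  have b0 : 0 ≤ b := ex_nn hν.nn fun A => mul_nonneg (bad_nn _ _) (sq_nonneg _)
  have D0 : 0 ≤ DG (nu ρ) (Gd 1) H := ex_nn hν.nn fun A => by
    split_ifs; exacts [sum_nonneg fun _ _ => sq_nonneg _, le_rfl]
  rw [e0]
  rcases le_or_gt (1 / 2) σ with h | h
  · nlinarith [hν.var_le_sub H c]
  have hγ : ex (nu ρ) (fun A => 1 - bad Gd 0 A) = 1 - σ := by rw [ex_sub, hν.ex_const]
  set d := ex (nu ρ) (fun A => (1 - bad Gd 0 A) * (H A - c)) / (1 - σ) with hd
  have hd1 : d * (1 - σ) = ex (nu ρ) fun A => (1 - bad Gd 0 A) * (H A - c) :=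
    div_mul_cancel₀ _ (by linarith)
  have hd2 : d ^ 2 ≤ 2 * N := by
    have := sq_ex_le (Gd := Gd) hν.nn 0 fun A => H A - c
    rw [← hd1, hγ, ← hN] at this
    have h1 : d ^ 2 * (1 - σ) ≤ N := le_of_mul_le_mul_right (by nlinarith) (by linarith : 0 < 1 - σ)
    nlinarith [sq_nonneg d]
  set u : Finset G → ℝ := fun A => H A - (c + d) with hu
  set s := ex (nu ρ) fun A => bad Gd 0 A * u A ^ 2 with hs
  have h1 : s ≤ 2 * b + 2 * d ^ 2 * σ := by
    rw [hb, hσ, ← ex_mul, ← ex_mul, ← ex_add]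
    exact ex_mono hν.nn fun A => by
      simp only [hu]; nlinarith [mul_nonneg (bad_nn (Gd := Gd) 0 A) (sq_nonneg (H A - c + d))]
  have h2 := gap hL hH (fun A => (1 - bad Gd 0 A) * u A) (fun A hA => by simp [bad_of_not hA]) (by
    have : (fun A => (1 - bad Gd 0 A) * u A) =
        fun A => (1 - bad Gd 0 A) * (H A - c) - d * (1 - bad Gd 0 A) := by
      funext A; simp only [hu]; ring
    rw [this, ex_sub, ex_mul, hγ, hd1, sub_self])
  have h3 := En_le_add hH.nn one_pos (fun A => (1 - bad Gd 0 A) * u A) u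
  have h4 := En_le_good hH.nn (Gd 1) (hL.down 1) u
  have h5 := EE_rare hH.nn (by norm_num) (fun A B => bad_le _ _) (hH.h1 0 (by omega))
    fun A => sq_nonneg (u A)
  have e1 : nsq (nu ρ) (fun A => (1 - bad Gd 0 A) * u A - u A) = s := by
    rw [nsq_eq_ex]; congr 1; funext A
    by_cases hA : Gd 0 A
    · simp [bad_of hA]
    · simp [bad_of_not hA]
  have e2 : nsq (nu ρ) u = nsq (nu ρ) (fun A => (1 - bad Gd 0 A) * u A) + s := by
    rw [nsq_eq_ex, nsq_eq_ex, hs, ← ex_add]; congr 1; funext A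
    by_cases hA : Gd 0 A
    · simp [bad_of hA]
    · simp [bad_of_not hA]
  have e3 : DG (nu ρ) (Gd 1) H = EE ρ fun A B => ∑ g ∈ B,
      (if Gd 1 (insert g A) then u (insert g A) - u A else 0) ^ 2 := by
    rw [DG_nu]; simp only [hu, sub_sub_sub_cancel_right]
  have e4 : EE ρ (fun A B => (if Gd 1 (A ∪ B) then 0 else 1) * u A ^ 2) =
      EE ρ fun A B => bad Gd (0 + 1) (A ∪ B) * u A ^ 2 := rfl
  have h6 := hν.var_le_sub H (c + d)
  rw [← nsq_eq_ex] at h5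
  rw [← e3, e4] at h4
  rw [e1] at h3
  have h7 := mul_le_mul_of_nonneg_right hd2 σ0
  have h8 := mul_nonneg σ0 N0
  linarith

/-! ### mixtures -/

variable {Ξ : Type} [Fintype Ξ] [DecidableEq Ξ] {W : Ξ → ℝ} {O : Ξ → Finset G} {D : G → ℝ}
  {A : Finset G}

/-- mass of the environments in which `A` is available. -/
def zz (W : Ξ → ℝ) (O : Ξ → Finset G) (A : Finset G) : ℝ := sm W O A fun _ => 1

/-- law of the environment given the first colour. -/
noncomputable def cl (W : Ξ → ℝ) (O : Ξ → Finset G) (A : Finset G) (ξ : Ξ) : ℝ :=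
  (if A ⊆ O ξ then W ξ else 0) / zz W O A

lemma nu_mix (W : Ξ → ℝ) (O : Ξ → Finset G) (D : G → ℝ) (A : Finset G) :
    nu (mix W O D) A = (∏ g ∈ A, D g) * zz W O A := by
  simp only [nu, cs_mix, av_const, zz]

lemma sm_eq' (W : Ξ → ℝ) (O : Ξ → Finset G) (A : Finset G) (φ : Ξ → ℝ) :
    sm W O A φ = ∑ ξ, (if A ⊆ O ξ then W ξ else 0) * φ ξ := by simp only [sm, ite_mul, zero_mul]

lemma zz_eq (W : Ξ → ℝ) (O : Ξ → Finset G) (A : Finset G) :
    zz W O A = ∑ ξ, if A ⊆ O ξ then W ξ else 0 := by simp only [zz, sm, mul_one]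

lemma zz_nn (hW : ∀ ξ, 0 ≤ W ξ) (A : Finset G) : 0 ≤ zz W O A := by
  rw [zz_eq]; exact sum_nonneg fun ξ _ => by split_ifs; exacts [hW ξ, le_rfl]

lemma cl_nn (hW : ∀ ξ, 0 ≤ W ξ) (A : Finset G) (ξ : Ξ) : 0 ≤ cl W O A ξ :=
  div_nonneg (by split_ifs; exacts [hW ξ, le_rfl]) (zz_nn hW A)

lemma pr_cl (hW : ∀ ξ, 0 ≤ W ξ) (h : zz W O A ≠ 0) : Pr (cl W O A) where
  nn := cl_nn hW A
  one := by simp only [cl, ← sum_div, ← zz_eq]; exact div_self h

lemma sm_eq (hW : ∀ ξ, 0 ≤ W ξ) (A : Finset G) (φ : Ξ → ℝ) :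
    sm W O A φ = zz W O A * ex (cl W O A) φ := by
  rw [sm_eq']
  by_cases h : zz W O A = 0
  · rw [h, zero_mul]
    rw [zz_eq, sum_eq_zero_iff_of_nonneg fun ξ _ => by split_ifs; exacts [hW ξ, le_rfl]] at h
    exact sum_eq_zero fun ξ hξ => by rw [h ξ hξ, zero_mul]
  · simp only [ex, cl, mul_sum]
    exact sum_congr rfl fun ξ _ => by field_simp

lemma sm_pt (W : Ξ → ℝ) (O : Ξ → Finset G) (A : Finset G) (φ : G → Ξ → ℝ) :
    sm W O A (fun ξ => ∑ g ∈ O ξ \ A, φ g ξ) = ∑ g ∈ Aᶜ, sm W O (insert g A) (φ g) := by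
  simp only [sm]
  rw [sum_comm]
  refine sum_congr rfl fun ξ _ => ?_
  split_ifs with h
  · have : O ξ \ A = Aᶜ.filter (· ∈ O ξ) := by ext; simp [and_comm]
    rw [this, sum_filter, mul_sum]
    refine sum_congr rfl fun g _ => ?_
    simp only [insert_subset_iff, h, and_true]
    split_ifs <;> ring
  · exact (sum_eq_zero fun g _ => by simp [insert_subset_iff, h]).symm

lemma cs_mix_cl (hW : ∀ ξ, 0 ≤ W ξ) (A : Finset G) (ψ : Finset G → ℝ) :
    cs (mix W O D) A ψ = nu (mix W O D) A * ex (cl W O A) fun ξ => av D (O ξ \ A) ψ := by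
  rw [cs_mix, nu_mix, sm_eq hW, mul_assoc]

/-- the hypotheses of the peel theorem for a mixture: everything is read in the law of the
environment given `A`; `B` is the independent `D`-thinning of `O ξ \ A`. -/
theorem Hyp.of_cl (hW : ∀ ξ, 0 ≤ W ξ) (hD : ∀ g, 0 ≤ D g ∧ D g ≤ 1)
    (h1 : ∀ i ≤ 26, ∀ A, Gd i A → nu (mix W O D) A ≠ 0 →
      ex (cl W O A) (fun ξ => av D (O ξ \ A) fun B => bad Gd (i + 1) (A ∪ B)) ≤ 1 / 10 ^ 9)
    (h2 : ∀ A, Gd 26 A → nu (mix W O D) A ≠ 0 →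
      ex (cl W O A) (fun ξ => av D (O ξ \ A) (bad Gd 0)) ≤ 1 / 10 ^ 9)
    (tk : ∀ A (a : G → ℝ), Gd 27 A → nu (mix W O D) A ≠ 0 →
      (∀ g, a g ≠ 0 → g ∉ A ∧ Gd 27 (insert g A)) →
      var (cl W O A) (fun ξ => ∑ g ∈ O ξ \ A, a g * D g) ≤
        ex (cl W O A) fun ξ => ∑ g ∈ O ξ \ A, a g ^ 2 * (D g ^ 2 + 1 / 5 * D g)) :
    Hyp (mix W O D) Gd := by
  have hρ := mix_nn (O := O) hW hD
  have key : ∀ A (x y : ℝ), (nu (mix W O D) A ≠ 0 → x ≤ y) →
      nu (mix W O D) A * x ≤ nu (mix W O D) A * y := fun A x y h => by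
    by_cases h0 : nu (mix W O D) A = 0
    · rw [h0]; simp
    · exact mul_le_mul_of_nonneg_left (h h0) (nu_nn hρ A)
  refine ⟨hρ, fun i hi A hA => ?_, fun A hA => ?_, fun A a hA ha => ?_⟩
  · rw [cs_mix_cl hW, mul_comm (1 / 10 ^ 9)]; exact key A _ _ (h1 i hi A hA)
  · rw [cs_mix_cl hW, mul_comm (1 / 10 ^ 9)]; exact key A _ _ (h2 A hA)
  · refine ⟨ex (cl W O A) fun ξ => ∑ g ∈ O ξ \ A, a g * D g, ?_⟩
    rw [cs_mix_cl hW, cs_mix_cl hW, mul_left_comm]
    refine key A _ _ fun h0 => ?_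
    have := tk A a hA h0 ha
    simp only [av_sq, av_sum]
    rw [ex_add, ← ex_mul]
    refine (add_le_add le_rfl this).trans (le_of_eq ?_)
    rw [← ex_add]; congr 1; funext ξ
    rw [mul_sum, ← sum_add_distrib]
    exact sum_congr rfl fun g _ => by ring

/-- covariance with a function of `π`. -/
lemma sq_cov_le {Ω κ : Type} [Fintype Ω] [DecidableEq Ω] [DecidableEq κ] {μ : Ω → ℝ} (hμ : Pr μ)
    (π : Ω → κ) (Φ : Ω → ℝ) {F : Ω → ℝ} (hF : ∀ ω ω', π ω = π ω' → F ω = F ω') :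
    ex μ (fun ω => Φ ω * (F ω - ex μ F)) ^ 2 ≤ var μ (ap (ce μ π) Φ) * var μ F := by
  have h := Op.cs hμ.nn (fun ω => F ω - ex μ F)
    fun ω => ap (ce μ π) Φ ω - ex μ (ap (ce μ π) Φ)
  rw [ip_sub_right, ip_const, hμ.ex_center, mul_zero, sub_zero, ip_eq_ex,
    ex_mul_ce hμ.nn fun ω ω' e => by rw [hF ω ω' e]] at h
  simp only [mul_comm (Φ _)]
  exact h.trans_eq (mul_comm _ _)

lemma zz_ne (h : nu (mix W O D) A ≠ 0) : zz W O A ≠ 0 :=
  fun h0 => h (by rw [nu_mix, h0, mul_zero])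

lemma D_ne (h : nu (mix W O D) A ≠ 0) : ∀ g ∈ A, D g ≠ 0 :=
  prod_ne_zero_iff.1 fun h0 => h (by rw [nu_mix, h0, zero_mul])

open Classical in
/-- **response**, covariance form. -/
theorem resp0 (hW : ∀ ξ, 0 ≤ W ξ) (hD : ∀ g, 0 ≤ D g) (gd : Finset G → Prop) {K : ℝ} (hK : 0 ≤ K)
    (F : Ξ → Finset G → ℝ)
    (hc : ∀ A (a : G → ℝ), nu (mix W O D) A ≠ 0 → (∀ g, a g ≠ 0 → g ∉ A ∧ gd (insert g A)) →
      ex (cl W O A) (fun ξ => (∑ g ∈ O ξ \ A, a g * D g) *
        (F ξ A - ex (cl W O A) fun ξ => F ξ A)) ^ 2 ≤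
        K * ex (cl W O A) (fun ξ => ∑ g ∈ O ξ \ A, a g ^ 2 * D g) * var (cl W O A) fun ξ => F ξ A) :
    DG (nu (mix W O D)) gd (fun A => ex (cl W O A) fun ξ => F ξ A) ≤
      2 * ex (nu (mix W O D)) (fun A => ex (cl W O A) fun ξ =>
        if gd A then ∑ g ∈ A, (F ξ A - F ξ (A.erase g)) ^ 2 else 0) +
      2 * K * ex (nu (mix W O D)) fun A => var (cl W O A) fun ξ => F ξ A := by
  have e0 : ex (nu (mix W O D)) (fun A => ex (cl W O A) fun ξ =>
      if gd A then ∑ g ∈ A, (F ξ A - F ξ (A.erase g)) ^ 2 else 0) =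
      ∑ A, ∑ g ∈ Aᶜ, nu (mix W O D) (insert g A) * ex (cl W O (insert g A)) fun ξ =>
        if gd (insert g A) then (F ξ (insert g A) - F ξ A) ^ 2 else 0 := by
    rw [← Gas.gnz (nu (mix W O D)) fun A g => ex (cl W O (insert g A)) fun ξ =>
      if gd (insert g A) then (F ξ (insert g A) - F ξ A) ^ 2 else 0]
    refine sum_congr rfl fun A _ => congrArg _ ?_
    rw [sum_congr rfl fun g hg => by rw [insert_erase hg]]
    simp only [ex]
    rw [sum_comm]
    refine sum_congr rfl fun ξ _ => ?_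
    rw [← mul_sum]; split_ifs <;> simp
  rw [DG_birth, e0, ex, mul_sum, mul_sum, ← sum_add_distrib]
  refine sum_le_sum fun A _ => ?_
  have P0 : 0 ≤ ∏ g ∈ A, D g := prod_nonneg fun g _ => hD g
  set H := ex (cl W O A) fun ξ => F ξ A with hH
  set r : G → ℝ := fun g => if g ∉ A ∧ gd (insert g A) then
    ex (cl W O (insert g A)) (fun ξ => F ξ A) - H else 0 with hr
  set Y := ∑ g ∈ Aᶜ, zz W O (insert g A) * (r g ^ 2 * D g) with hY
  have Y0 : 0 ≤ Y := sum_nonneg fun g _ =>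
    mul_nonneg (zz_nn hW _) (mul_nonneg (sq_nonneg _) (hD g))
  have eY : Y = zz W O A * ex (cl W O A) fun ξ => ∑ g ∈ O ξ \ A, r g ^ 2 * D g := by
    rw [← sm_eq hW, sm_pt W O A fun g _ => r g ^ 2 * D g]
    refine sum_congr rfl fun g _ => ?_
    rw [sm_eq', ← sum_mul, zz_eq]
  have eY' : Y = zz W O A * ex (cl W O A) fun ξ => (∑ g ∈ O ξ \ A, r g * D g) * (F ξ A - H) := by
    simp only [sum_mul]
    rw [← sm_eq hW, sm_pt W O A fun g ξ => r g * D g * (F ξ A - H)]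
    refine sum_congr rfl fun g hg => ?_
    rw [sm_eq hW]
    by_cases h0 : zz W O (insert g A) = 0
    · rw [h0, zero_mul, zero_mul]
    · rw [ex_mul, ex_sub, (pr_cl hW h0).ex_const]
      simp only [hr]
      split_ifs <;> ring
  have hY2 : (∏ g ∈ A, D g) * Y ≤
      (∏ g ∈ A, D g) * (zz W O A * (K * var (cl W O A) fun ξ => F ξ A)) := by
    by_cases hn : nu (mix W O D) A = 0
    · rw [eY, ← mul_assoc, ← mul_assoc, ← nu_mix, hn, zero_mul, zero_mul]
    have h0 := zz_ne hn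
    have z0 := (zz_nn (O := O) hW A).lt_of_ne' h0
    have h2 := hc A r hn fun g hg => by by_contra h; exact hg (if_neg h)
    have e := mul_left_cancel₀ h0 (eY.symm.trans eY')
    have V0 := var_nn (cl_nn (O := O) hW A) fun ξ => F ξ A
    rw [← hH, ← e] at h2
    rw [eY] at Y0 ⊢
    refine mul_le_mul_of_nonneg_left (mul_le_mul_of_nonneg_left ?_ z0.le) P0
    set y := ex (cl W O A) fun ξ => ∑ g ∈ O ξ \ A, r g ^ 2 * D g
    rcases (le_of_mul_le_mul_left (by simpa using Y0 : zz W O A * 0 ≤ zz W O A * y) z0).eq_or_lt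
      with h | h
    · rw [← h]; positivity
    · refine le_of_mul_le_mul_left ?_ h
      nlinarith
  rw [nu_mix W O D A, mul_sum]
  refine le_trans ?_ (add_le_add le_rfl (by linarith : 2 * ((∏ g ∈ A, D g) * Y) ≤ _))
  rw [hY, mul_sum, mul_sum, ← sum_add_distrib]
  refine sum_le_sum fun g hg => ?_
  have hg' := mem_compl.1 hg
  rw [nu_mix, prod_insert hg']
  by_cases h0 : zz W O (insert g A) = 0
  · simp [h0]
  have n0 := mul_nonneg (mul_nonneg (hD g) P0) (zz_nn (O := O) hW (insert g A))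
  simp only [hr, hg', not_false_eq_true, true_and]
  split_ifs with h
  · have h1 := (pr_cl hW h0).sq_ex_le fun ξ => F ξ (insert g A) - F ξ A
    rw [ex_sub, nsq_eq_ex] at h1
    nlinarith [mul_le_mul_of_nonneg_left h1 n0, mul_nonneg n0 (sq_nonneg
      (ex (cl W O (insert g A)) (fun ξ => F ξ (insert g A)) -
        2 * ex (cl W O (insert g A)) (fun ξ => F ξ A) + H))]
  · simp [ex]

open Classical in
/-- **response**: `F ξ A` depends on the environment through `π` only. -/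
theorem resp {κ : Type} [DecidableEq κ] (hW : ∀ ξ, 0 ≤ W ξ) (hD : ∀ g, 0 ≤ D g) (π : Ξ → κ)
    (gd : Finset G → Prop) {K : ℝ} (hK : 0 ≤ K)
    (tkb : ∀ A (a : G → ℝ), nu (mix W O D) A ≠ 0 → (∀ g, a g ≠ 0 → g ∉ A ∧ gd (insert g A)) →
      var (cl W O A) (ap (ce (cl W O A) π) fun ξ => ∑ g ∈ O ξ \ A, a g * D g) ≤
        K * ex (cl W O A) fun ξ => ∑ g ∈ O ξ \ A, a g ^ 2 * D g)
    (F : Ξ → Finset G → ℝ) (hF : ∀ ξ ξ' A, π ξ = π ξ' → F ξ A = F ξ' A) :
    DG (nu (mix W O D)) gd (fun A => ex (cl W O A) fun ξ => F ξ A) ≤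
      2 * ex (nu (mix W O D)) (fun A => ex (cl W O A) fun ξ =>
        if gd A then ∑ g ∈ A, (F ξ A - F ξ (A.erase g)) ^ 2 else 0) +
      2 * K * ex (nu (mix W O D)) fun A => var (cl W O A) fun ξ => F ξ A :=
  resp0 hW hD gd hK F fun A a hA ha =>
    (sq_cov_le (pr_cl hW (zz_ne hA)) π _ fun ξ ξ' e => hF ξ ξ' A e).trans
      (mul_le_mul_of_nonneg_right (tkb A a hA ha) (var_nn (cl_nn hW A) _))

/-- joint expectation over the first colour and the environment. -/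
noncomputable def jx (W : Ξ → ℝ) (O : Ξ → Finset G) (D : G → ℝ) (φ : Ξ → Finset G → ℝ) : ℝ :=
  ex (nu (mix W O D)) fun A => ex (cl W O A) fun ξ => φ ξ A

lemma jx_eq (hW : ∀ ξ, 0 ≤ W ξ) (φ : Ξ → Finset G → ℝ) :
    jx W O D φ = ∑ ξ, W ξ * ∑ A ∈ (O ξ).powerset, (∏ g ∈ A, D g) * φ ξ A := by
  rw [jx, ex]
  simp only [nu_mix, mul_assoc, ← sm_eq hW]
  simp only [sm, mul_sum]
  rw [sum_comm]
  refine sum_congr rfl fun ξ _ => ?_
  simp only [mul_ite, mul_zero, ← sum_filter]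
  exact sum_congr (by ext; simp) fun _ _ => by ring



end Crest.Agent.N337.Pe
end

-- ▼ part N337/Pc/PeelA

/-!
# Row 337, block (c): the two-colour gas as a mixture

Environment `(ξ, w)`, available loops `L ξ \ w`; the law of the environment given the top colour
is the medium followed by the coins (`ex_cl`).
-/

set_option autoImplicit false
set_option linter.unusedSectionVars false

namespace Crest.Agent.N337.Pc

open Finset Crest.Agent.N337.Op Crest.Agent.N337.Gas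

variable {Γ : Type} [Fintype Γ] [DecidableEq Γ] {Ξ : Type} [Fintype Ξ] [DecidableEq Ξ]

/-- the labelled family with medium `w` and top colour `A`. -/
def lab (w A : Finset Γ) : Finset (Γ × Bool) :=
  univ.filter fun y => if y.2 = true then y.1 ∈ A else y.1 ∈ w

/-- the labelled polymers of the medium. -/
def lo (X : Finset (Γ × Bool)) : Finset (Γ × Bool) := X.filter fun y => y.2 = false

variable {w A : Finset Γ} {g : Γ}

@[simp] lemma mem_lab_t : (g, true) ∈ lab w A ↔ g ∈ A := by simp [lab]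
@[simp] lemma mem_lab_f : (g, false) ∈ lab w A ↔ g ∈ w := by simp [lab]

lemma fg_hi_lab (w A : Finset Γ) : fg (hi (lab w A)) = A := by ext; simp [mem_fg, hi]
lemma fg_lo_lab (w A : Finset Γ) : fg (lo (lab w A)) = w := by ext; simp [mem_fg, lo]
lemma fg_lab (w A : Finset Γ) : fg (lab w A) = A ∪ w := by ext; simp [mem_fg, or_comm]

lemma lab_fg (X : Finset (Γ × Bool)) : lab (fg (lo X)) (fg (hi X)) = X := by
  ext ⟨g, b⟩; cases b <;> simp [mem_fg, lo, hi]

lemma hi_lab (w A : Finset Γ) : hi (lab w A) = lab ∅ A := by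
  ext ⟨g, b⟩; cases b <;> simp [hi]

lemma hi_eq_iff {X : Finset (Γ × Bool)} : hi (lab w A) = hi X ↔ A = fg (hi X) := by
  refine ⟨fun h => by rw [← h, fg_hi_lab], fun h => ?_⟩
  conv_rhs => rw [← lab_fg X]
  rw [hi_lab, hi_lab, h]

lemma lab_erase (w A : Finset Γ) (g : Γ) : (lab w A).erase (g, true) = lab w (A.erase g) := by
  ext ⟨g', b⟩; cases b <;> simp

lemma inj_lab : Inj (lab w A) ↔ Disjoint A w := by
  refine ⟨fun h => disjoint_left.2 fun g h1 h2 => ?_, fun h => ?_⟩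
  · simpa using h (g, true) (mem_lab_t.2 h1) (g, false) (mem_lab_f.2 h2) rfl
  · rintro ⟨g, b⟩ h1 ⟨g', b'⟩ h2 (rfl : g = g')
    cases b <;> cases b' <;> simp only [mem_lab_t, mem_lab_f] at h1 h2
    exacts [rfl, absurd h1 (disjoint_left.1 h h2), absurd h2 (disjoint_left.1 h h1), rfl]

lemma prod_lab (w A : Finset Γ) (f : Γ × Bool → ℝ) :
    ∏ y ∈ lab w A, f y = (∏ g ∈ A, f (g, true)) * ∏ g ∈ w, f (g, false) := by
  simp [lab, prod_filter, Fintype.prod_prod_type_right]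

lemma sum_hi_lab (w A : Finset Γ) (f : Γ × Bool → ℝ) :
    ∑ y ∈ hi (lab w A), f y = ∑ g ∈ A, f (g, true) := by
  rw [hi_lab]
  simp [lab, sum_filter, Fintype.sum_prod_type_right]

lemma sum_lab (φ : Finset (Γ × Bool) → ℝ) : ∑ X, φ X = ∑ w, ∑ A, φ (lab w A) := by
  rw [← Fintype.sum_prod_type']
  exact (Fintype.sum_equiv (⟨fun p => lab p.1 p.2, fun X => (fg (lo X), fg (hi X)),
    fun p => by simp only [fg_hi_lab, fg_lo_lab], lab_fg⟩ :
      Finset Γ × Finset Γ ≃ Finset (Γ × Bool)) _ _ fun _ => rfl).symm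

lemma gw_lab (q : Finset Γ → ℝ) (u D : Γ → ℝ) (w A : Finset Γ) :
    gw (qL q) (two u D) (lab w A) =
      if Disjoint A w then q (A ∪ w) * ((∏ g ∈ A, D g) * ∏ g ∈ w, u g) else 0 := by
  simp only [gw, qL, inj_lab, fg_lab, prod_lab, two, ite_mul, zero_mul]
  simp

/-- mean over the coins given that `x` is present. -/
noncomputable def cE (P : Ξ → ℝ) (L : Ξ → Finset Γ) (x : Finset Γ) (ψ : Ξ → ℝ) : ℝ :=
  (∑ ξ, P ξ * if x ⊆ L ξ then ψ ξ else 0) / qP P L x

/-- weight of the environment. -/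
noncomputable def WW (P : Ξ → ℝ) (L : Ξ → Finset Γ) (u D : Γ → ℝ) (e : Ξ × Finset Γ) : ℝ :=
  (if e.2 ⊆ L e.1 then P e.1 * ∏ g ∈ e.2, u g else 0) / gZ (qL (qP P L)) (two u D)

/-- available loops. -/
def OO (L : Ξ → Finset Γ) (e : Ξ × Finset Γ) : Finset Γ := L e.1 \ e.2

variable {P : Ξ → ℝ} {L : Ξ → Finset Γ} {u D : Γ → ℝ} {x : Finset Γ}

lemma two_nn (hu : ∀ g, 0 ≤ u g) (hD : ∀ g, 0 ≤ D g) (y : Γ × Bool) : 0 ≤ two u D y := by
  unfold two; split_ifs; exacts [hD _, hu _]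

lemma WW_nn (hP : Pr P) (hu : ∀ g, 0 ≤ u g) (hD : ∀ g, 0 ≤ D g) (e : Ξ × Finset Γ) :
    0 ≤ WW P L u D e :=
  div_nonneg (by split_ifs; exacts [mul_nonneg (hP.nn _) (prod_nonneg fun g _ => hu g), le_rfl])
    (gZ_pos (cpt_qP hP L).qL (two_nn hu hD)).le

lemma P_zero (hP : Pr P) (h : qP P L x = 0) {ξ : Ξ} (hx : x ⊆ L ξ) : P ξ = 0 := by
  have := (sum_eq_zero_iff_of_nonneg fun ξ _ =>
    mul_nonneg (hP.nn ξ) (by split_ifs <;> norm_num)).1 h ξ (mem_univ _)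
  rwa [if_pos hx, mul_one] at this

lemma qP_mul_cE (hP : Pr P) (x : Finset Γ) (ψ : Ξ → ℝ) :
    qP P L x * cE P L x ψ = ∑ ξ, P ξ * if x ⊆ L ξ then ψ ξ else 0 := by
  by_cases h : qP P L x = 0
  · rw [h, zero_mul]
    refine (sum_eq_zero fun ξ _ => ?_).symm
    split_ifs with hx
    · rw [P_zero hP h hx, zero_mul]
    · rw [mul_zero]
  · exact mul_div_cancel₀ _ h

lemma cE_mul (c : ℝ) (ψ : Ξ → ℝ) : cE P L x (fun ξ => ψ ξ * c) = cE P L x ψ * c := by
  rw [cE, cE, div_mul_eq_mul_div, sum_mul]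
  congr 1
  exact sum_congr rfl fun ξ _ => by split_ifs <;> ring

lemma cE_one (h : qP P L x ≠ 0) : cE P L x (fun _ => 1) = 1 := div_self h

lemma cE_const (h : qP P L x ≠ 0) (c : ℝ) : cE P L x (fun _ => c) = c := by
  simpa only [one_mul, cE_one h] using cE_mul (P := P) (L := L) (x := x) c fun _ => 1

lemma cE_sum (c : Γ → ℝ) (ψ : Γ → Ξ → ℝ) :
    cE P L x (fun ξ => ∑ g, c g * ψ g ξ) = ∑ g, c g * cE P L x (ψ g) := by
  simp only [cE, ← mul_div_assoc, ← sum_div, mul_sum]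
  rw [sum_comm]
  congr 1
  refine sum_congr rfl fun ξ _ => ?_
  split_ifs
  · rw [mul_sum]; exact sum_congr rfl fun g _ => by ring
  · simp

lemma sub_OO {ξ : Ξ} : (w ⊆ L ξ ∧ A ⊆ OO L (ξ, w)) ↔ (Disjoint A w ∧ A ∪ w ⊆ L ξ) := by
  simp only [OO, subset_sdiff, union_subset_iff]; tauto

/-- the two-colour gas is the joint law of the mixture. -/
theorem ex_mu (hP : Pr P) (hu : ∀ g, 0 ≤ u g) (hD : ∀ g, 0 ≤ D g) (φ : Finset (Γ × Bool) → ℝ) :
    ex (nu (qL (qP P L)) (two u D)) φ =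
      Pe.jx (WW P L u D) (OO L) D fun e A => φ (lab e.2 A) := by
  rw [Pe.jx_eq (WW_nn hP hu hD), ex_nu, sum_lab, Fintype.sum_prod_type_right, sum_div]
  refine sum_congr rfl fun w _ => ?_
  have e : ∀ (S : Finset Γ) (f : Finset Γ → ℝ),
      ∑ A ∈ S.powerset, f A = ∑ A, if A ⊆ S then f A else 0 := fun S f => by
    rw [← sum_filter]; exact sum_congr (by ext; simp) fun _ _ => rfl
  simp only [e, mul_sum]
  rw [sum_comm, sum_div]
  refine sum_congr rfl fun A _ => ?_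
  have : ∀ ξ, (WW P L u D (ξ, w) * if A ⊆ OO L (ξ, w) then (∏ g ∈ A, D g) * φ (lab w A) else 0) =
      (P ξ * if A ∪ w ⊆ L ξ then 1 else 0) * ((if Disjoint A w then
        (∏ g ∈ A, D g) * ∏ g ∈ w, u g else 0) * φ (lab w A) / gZ (qL (qP P L)) (two u D)) := by
    intro ξ
    have := sub_OO (L := L) (w := w) (A := A) (ξ := ξ)
    simp only [WW]
    split_ifs <;> first | ring1 | tauto
  simp only [this, ← sum_mul]
  rw [gw_lab, ← qP]
  split_ifs <;> ring

lemma prod_off (u : Γ → ℝ) (A w : Finset Γ) :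
    ∏ g ∈ w, off (· ∈ A) u g = if Disjoint A w then ∏ g ∈ w, u g else 0 := by
  split_ifs with h
  · exact prod_congr rfl fun g hg => if_neg (disjoint_right.1 h hg)
  · obtain ⟨g, h1, h2⟩ := not_disjoint_iff.1 h
    exact prod_eq_zero h2 (if_pos h1)

lemma q_ne (hP : Pr P) (h : Pe.zz (WW P L u D) (OO L) A ≠ 0) : qP P L A ≠ 0 := fun h0 =>
  h (sum_eq_zero fun e _ => by
    split_ifs with h1
    · simp [WW, P_zero hP h0 (h1.trans sdiff_subset)]
    · rfl)

lemma sm_WW (hP : Pr P) (h : qP P L A ≠ 0) (φ : Ξ × Finset Γ → ℝ) :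
    Pe.sm (WW P L u D) (OO L) A φ = qP P L A / gZ (qL (qP P L)) (two u D) *
      ∑ w, gw (sh (qP P L) A) (off (· ∈ A) u) w * cE P L (A ∪ w) fun ξ => φ (ξ, w) := by
  rw [Pe.sm, Fintype.sum_prod_type_right, mul_sum]
  refine sum_congr rfl fun w _ => ?_
  have : ∀ ξ, (if A ⊆ OO L (ξ, w) then WW P L u D (ξ, w) * φ (ξ, w) else 0) =
      (P ξ * if A ∪ w ⊆ L ξ then φ (ξ, w) else 0) *
        ((if Disjoint A w then ∏ g ∈ w, u g else 0) / gZ (qL (qP P L)) (two u D)) := by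
    intro ξ
    have := sub_OO (L := L) (w := w) (A := A) (ξ := ξ)
    simp only [WW]
    split_ifs <;> first | ring1 | tauto
  simp only [this, ← sum_mul]
  rw [← qP_mul_cE hP, gw, sh, prod_off]
  field_simp

lemma med_supp {q : Finset Γ → ℝ} (h : med q u A w ≠ 0) : q (A ∪ w) ≠ 0 ∧ Disjoint A w :=
  ⟨fun h0 => (nu_supp h).1 (by rw [sh, h0, zero_div]),
    disjoint_right.2 fun g hg hA => (nu_supp h).2 g hg (if_pos hA)⟩

lemma pr_med {q : Finset Γ → ℝ} (hq : Cpt q) (hu : ∀ g, 0 ≤ u g) (h : q A ≠ 0) : Pr (med q u A) :=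
  pr_nu (hq.sh h) (off_nn hu)

/-- the law of the environment given the top colour. -/
theorem ex_cl (hP : Pr P) (hu : ∀ g, 0 ≤ u g) (hD : ∀ g, 0 ≤ D g)
    (h : Pe.zz (WW P L u D) (OO L) A ≠ 0) (φ : Ξ × Finset Γ → ℝ) :
    ex (Pe.cl (WW P L u D) (OO L) A) φ =
      ex (med (qP P L) u A) fun w => cE P L (A ∪ w) fun ξ => φ (ξ, w) := by
  have hq := q_ne hP h
  have hZ := (gZ_pos ((cpt_qP hP L).sh hq) (off_nn (Q := (· ∈ A)) hu)).ne'
  have key : ∀ φ : Ξ × Finset Γ → ℝ, Pe.sm (WW P L u D) (OO L) A φ =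
      qP P L A / gZ (qL (qP P L)) (two u D) * gZ (sh (qP P L) A) (off (· ∈ A) u) *
        ex (med (qP P L) u A) fun w => cE P L (A ∪ w) fun ξ => φ (ξ, w) := fun φ => by
    rw [sm_WW hP hq, med, ex_nu, mul_assoc, mul_div_cancel₀ _ hZ]
  have h1 := key fun _ => 1
  rw [ex_congr (g := fun _ => 1) fun w hw => cE_one (med_supp hw).1,
    (pr_med (cpt_qP hP L) hu hq).ex_const, mul_one] at h1
  refine mul_left_cancel₀ h ?_
  rw [← Pe.sm_eq (WW_nn hP hu hD), key, ← h1, Pe.zz]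

lemma ex_cl_w (hP : Pr P) (hu : ∀ g, 0 ≤ u g) (hD : ∀ g, 0 ≤ D g)
    (h : Pe.zz (WW P L u D) (OO L) A ≠ 0) (f : Finset Γ → ℝ) :
    ex (Pe.cl (WW P L u D) (OO L) A) (fun e => f e.2) = ex (med (qP P L) u A) f := by
  rw [ex_cl hP hu hD h]
  exact ex_congr fun w hw => cE_const (med_supp hw).1 (f w)

lemma var_cl_w (hP : Pr P) (hu : ∀ g, 0 ≤ u g) (hD : ∀ g, 0 ≤ D g)
    (h : Pe.zz (WW P L u D) (OO L) A ≠ 0) (f : Finset Γ → ℝ) :
    var (Pe.cl (WW P L u D) (OO L) A) (fun e => f e.2) = var (med (qP P L) u A) f := by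
  simp only [var, nsq_eq_ex, ex_cl_w hP hu hD h]
  exact ex_cl_w hP hu hD h fun w => (f w - _) ^ 2

lemma av_eq_bw (D : Γ → ℝ) (X : Finset Γ) (f : Finset Γ → ℝ) :
    Pe.av D X f = ∑ B ∈ X.powerset, bw D X B * f B := by
  refine sum_congr rfl fun B hB => ?_
  rw [Pe.wt, bw, prod_ite, filter_mem_eq_inter, inter_eq_right.2 (mem_powerset.1 hB),
    ← sdiff_eq_filter]

lemma OO_sdiff (L : Ξ → Finset Γ) (ξ : Ξ) (w A : Finset Γ) : OO L (ξ, w) \ A = L ξ \ (A ∪ w) := by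
  rw [OO, sdiff_sdiff_left, union_comm]; rfl

lemma ex_cl_av (hP : Pr P) (hu : ∀ g, 0 ≤ u g) (hD : ∀ g, 0 ≤ D g)
    (h : Pe.zz (WW P L u D) (OO L) A ≠ 0) (f : Finset Γ → ℝ) :
    ex (Pe.cl (WW P L u D) (OO L) A) (fun e => Pe.av D (OO L e \ A) f) = kB P L u D A f := by
  rw [ex_cl hP hu hD h]
  simp only [OO_sdiff, av_eq_bw]; rfl

/-- indicator that the loops of `T` are up. -/
def JJ (L : Ξ → Finset Γ) (A T : Finset Γ) (e : Ξ × Finset Γ) : ℝ :=
  if T ⊆ OO L e \ A then 1 else 0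

lemma cE_JJ (h : qP P L A ≠ 0) {T : Finset Γ} (hT : Disjoint T A) :
    cE P L (A ∪ w) (fun ξ => JJ L A T (ξ, w)) =
      if Disjoint T w then sh (sh (qP P L) A) w T else 0 := by
  simp only [cE, JJ, OO_sdiff, subset_sdiff, disjoint_union_right, hT, true_and]
  split_ifs with h1
  · rw [sh, sh, sh, div_div_div_cancel_right₀ h, ← union_assoc]
    congr 1
    refine sum_congr rfl fun ξ _ => ?_
    simp only [h1, if_true, union_subset_iff (s := A ∪ w), ite_and]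
  · simp [h1]

lemma cE_up (h : qP P L A ≠ 0) (hg : g ∉ A) :
    cE P L (A ∪ w) (fun ξ => JJ L A {g} (ξ, w)) = up (sh (qP P L) A) w g := by
  rw [cE_JJ h (disjoint_singleton_left.2 hg), up]
  simp only [disjoint_singleton_left, ite_not]

lemma cE_up2 {g' : Γ} (h : qP P L A ≠ 0) (hg : g ∉ A) (hg' : g' ∉ A) :
    cE P L (A ∪ w) (fun ξ => JJ L A {g, g'} (ξ, w)) = up2 (sh (qP P L) A) w g g' := by
  rw [cE_JJ h (by simp [hg, hg']), up2]
  simp only [disjoint_insert_left, disjoint_singleton_left, ← not_or, ite_not]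

lemma sum_JJ (L : Ξ → Finset Γ) (A : Finset Γ) (c : Γ → ℝ) (e : Ξ × Finset Γ) :
    ∑ g ∈ OO L e \ A, c g = ∑ g, c g * JJ L A {g} e := by
  simp only [JJ, singleton_subset_iff, mul_ite, mul_one, mul_zero, sum_ite_mem, univ_inter]

lemma JJ_mul (L : Ξ → Finset Γ) (A : Finset Γ) (g g' : Γ) (e : Ξ × Finset Γ) :
    JJ L A {g} e * JJ L A {g'} e = JJ L A {g, g'} e := by
  simp only [JJ, singleton_subset_iff, insert_subset_iff, ite_and]
  split_ifs <;> simp

lemma cE_Phi (h : qP P L A ≠ 0) {c : Γ → ℝ} (hc : ∀ g, c g ≠ 0 → g ∉ A) :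
    cE P L (A ∪ w) (fun ξ => ∑ g ∈ OO L (ξ, w) \ A, c g) = Phb (sh (qP P L) A) c w := by
  simp only [sum_JJ]
  rw [cE_sum c fun g ξ => JJ L A {g} (ξ, w)]
  refine sum_congr rfl fun g _ => ?_
  by_cases h0 : c g = 0
  · rw [h0, zero_mul, zero_mul]
  · rw [cE_up h (hc g h0)]

end Crest.Agent.N337.Pc
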