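import Crest.Agent.N337.Pc.Forms
import Crest.Agent.N337.Pc.Sparse
import Crest.Agent.N337.TK.Defs

-- ▼ part N337/Pc/Add
section

/-!
# Row 337, block (c): the Turán–Kubilius bound is additive over independent boxes (helper78)
-/

set_option autoImplicit false
set_option linter.unusedSectionVars false

namespace Crest.Agent.N337.Pc

open Finset Crest.Agent.N337.Op Crest.Agent.N337.Gas

variable {Γ : Type} [Fintype Γ] [DecidableEq Γ] {q : Finset Γ → ℝ} {u D : Γ → ℝ}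
  {ι : Type} [Fintype ι] [DecidableEq ι] {B : ι → Γ → Prop} [∀ i, DecidablePred (B i)]

lemma ex_pm_one {E : Type} [Fintype E] [DecidableEq E] {ν : ι → E → ℝ} (hν : ∀ i, Pr (ν i))
    (i : ι) (f : E → ℝ) : ex (pm ν) (fun ω => f (ω i)) = ex (ν i) f := by
  rw [ex_pm_sec hν i]
  simp only [Function.update_self]
  exact (pr_pm hν).ex_const _

lemma ex_pm_two {E : Type} [Fintype E] [DecidableEq E] {ν : ι → E → ℝ} (hν : ∀ i, Pr (ν i))
    {i j : ι} (hij : i ≠ j) (f f' : E → ℝ) :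
    ex (pm ν) (fun ω => f (ω i) * f' (ω j)) = ex (ν i) f * ex (ν j) f' := by
  rw [ex_pm_sec hν i]
  simp only [Function.update_self, Function.update_of_ne hij.symm]
  have : ∀ ω : ι → E, ex (ν i) (fun x => f x * f' (ω j)) = ex (ν i) f * f' (ω j) := fun ω => by
    rw [mul_comm, ← ex_mul]; congr 1; funext x; ring
  simp only [this]
  rw [ex_mul, ex_pm_one hν]

/-- independent boxes. -/
structure Box (q : Finset Γ → ℝ) (B : ι → Γ → Prop) [∀ i, DecidablePred (B i)] : Prop where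
  cpt : Cpt q
  uniq : ∀ i j g, B i g → B j g → i = j
  prod : ∀ A, (∀ g ∈ A, ∃ i, B i g) → q A = ∏ i, q (A.filter (B i))

lemma Box.sh_un (h : Box q B) {ω : ι → Finset Γ} (hω : ∀ i, ∀ g ∈ ω i, B i g)
    {x : Finset Γ} (hx : ∀ g ∈ x, ∃ i, B i g) :
    sh q (un ω) x = ∏ i, q (ω i ∪ x.filter (B i)) / q (ω i) := by
  have h1 : ∀ g ∈ un ω, ∃ i, B i g := fun g hg => by
    obtain ⟨i, -, hi⟩ := mem_biUnion.1 hg; exact ⟨i, hω i g hi⟩
  rw [Gas.sh, h.prod _ h1, h.prod (un ω ∪ x) fun g hg => (mem_union.1 hg).elim (h1 g) (hx g),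
    prod_div_distrib]
  simp only [filter_union, filter_un h.uniq hω]

lemma mem_un_iff (hB : ∀ i j g, B i g → B j g → i = j) {ω : ι → Finset Γ}
    (hω : ∀ i, ∀ g ∈ ω i, B i g) {i : ι} {g : Γ} (hg : B i g) : g ∈ un ω ↔ g ∈ ω i := by
  rw [← filter_un hB hω i, mem_filter]; tauto

lemma Box.sh_in (h : Box q B) {ω : ι → Finset Γ} (hω : ∀ i, ∀ g ∈ ω i, B i g)
    (h0 : ∀ i, q (ω i) ≠ 0) {x : Finset Γ} {i : ι} (hx : ∀ g ∈ x, B i g) :
    sh q (un ω) x = sh q (ω i) x := by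
  rw [h.sh_un hω fun g hg => ⟨i, hx g hg⟩, prod_eq_single i, filter_true_of_mem hx, Gas.sh]
  · intro j _ hj
    rw [filter_false_of_mem fun g hg hb => hj (h.uniq _ _ g hb (hx g hg)), union_empty,
      div_self (h0 j)]
  · simp

lemma Box.sh_two (h : Box q B) {ω : ι → Finset Γ} (hω : ∀ i, ∀ g ∈ ω i, B i g)
    (h0 : ∀ i, q (ω i) ≠ 0) {i j : ι} (hij : i ≠ j) {g g' : Γ} (hg : B i g) (hg' : B j g') :
    sh q (un ω) {g, g'} = sh q (ω i) {g} * sh q (ω j) {g'} := by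
  have e1 : ({g, g'} : Finset Γ).filter (B i) = {g} := by
    ext x; simp only [mem_filter, mem_insert, mem_singleton]
    exact ⟨fun ⟨h1, h2⟩ => h1.elim id fun e => absurd (h.uniq _ _ _ (e ▸ h2) hg') hij,
      fun e => ⟨Or.inl e, e ▸ hg⟩⟩
  have e2 : ({g, g'} : Finset Γ).filter (B j) = {g'} := by
    ext x; simp only [mem_filter, mem_insert, mem_singleton]
    exact ⟨fun ⟨h1, h2⟩ => h1.elim (fun e => absurd (h.uniq _ _ _ hg (e ▸ h2)) hij) id,
      fun e => ⟨Or.inr e, e ▸ hg'⟩⟩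
  rw [h.sh_un hω (by simpa using ⟨⟨i, hg⟩, ⟨j, hg'⟩⟩), prod_eq_mul i j hij, e1, e2, Gas.sh, Gas.sh]
  · intro k _ hk
    rw [filter_false_of_mem, union_empty, div_self (h0 k)]
    intro x hx hb
    rcases mem_insert.1 hx with rfl | hx
    · exact hk.1 (h.uniq _ _ _ hb hg)
    · exact hk.2 (h.uniq _ _ _ hb (mem_singleton.1 hx ▸ hg'))
  · simp
  · simp

lemma pm_supp {ω : ι → Finset Γ} (h : pm (fun i => nu q (on (B i) u)) ω ≠ 0) :
    (∀ i, ∀ g ∈ ω i, B i g) ∧ ∀ i, q (ω i) ≠ 0 := by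
  have h1 : ∀ i, nu q (on (B i) u) (ω i) ≠ 0 := fun i => prod_ne_zero_iff.1 h i (mem_univ i)
  refine ⟨fun i g hg => ?_, fun i => (nu_supp (h1 i)).1⟩
  by_contra hb
  exact (nu_supp (h1 i)).2 g hg (if_neg hb)

variable (h : Box q B) (hu : ∀ g, 0 ≤ u g) (hs : ∀ g, u g ≠ 0 → ∃ i, B i g)
include h hu hs

lemma Box.P1_eq {i : ι} {g : Γ} (hg : B i g) : P1 q u g = P1 q (on (B i) u) g := by
  have hν := fun i => pr_nu h.cpt (on_nn (Q := B i) hu)
  rw [P1, ex_prod h.uniq hs h.prod, P1, ← ex_pm_one hν i]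
  refine ex_congr fun ω hω => ?_
  obtain ⟨h1, h2⟩ := pm_supp hω
  simp only [up, mem_un_iff h.uniq h1 hg]
  rw [h.sh_in h1 h2 (i := i) (by simpa using hg)]

lemma Box.P2_in {i : ι} {g g' : Γ} (hg : B i g) (hg' : B i g') :
    P2 q u g g' = P2 q (on (B i) u) g g' := by
  have hν := fun i => pr_nu h.cpt (on_nn (Q := B i) hu)
  rw [P2, ex_prod h.uniq hs h.prod, P2, ← ex_pm_one hν i]
  refine ex_congr fun ω hω => ?_
  obtain ⟨h1, h2⟩ := pm_supp hω
  simp only [up2, mem_un_iff h.uniq h1 hg, mem_un_iff h.uniq h1 hg']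
  rw [h.sh_in h1 h2 (i := i) (by simpa using ⟨hg, hg'⟩)]

lemma Box.P2_out {i j : ι} (hij : i ≠ j) {g g' : Γ} (hg : B i g) (hg' : B j g') :
    P2 q u g g' = P1 q u g * P1 q u g' := by
  have hν := fun i => pr_nu h.cpt (on_nn (Q := B i) hu)
  rw [h.P1_eq hu hs hg, h.P1_eq hu hs hg', P2, ex_prod h.uniq hs h.prod, P1, P1,
    ← ex_pm_two hν hij]
  refine ex_congr fun ω hω => ?_
  obtain ⟨h1, h2⟩ := pm_supp hω
  simp only [up2, up, mem_un_iff h.uniq h1 hg, mem_un_iff h.uniq h1 hg']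
  rw [h.sh_two h1 h2 hij hg hg']
  by_cases a1 : g ∈ ω i <;> by_cases a2 : g' ∈ ω j <;> simp [a1, a2]

/-- **additivity.** -/
theorem Box.tkt {S : Γ → Prop} {κ : ℝ} (hD : ∀ g, D g ≠ 0 → ∃ i, B i g)
    (H : ∀ i, TKt q (on (B i) u) (on (B i) D) S κ) : TKt q u D S κ := fun a ha => by
  have one : ∀ (g : Γ) (c : ℝ), D g ≠ 0 → ∑ i, (if B i g then c else 0) = c := fun g c hg => by
    obtain ⟨i, hi⟩ := hD g hg
    rw [sum_eq_single i, if_pos hi]
    · exact fun j _ hj => if_neg fun hb => hj (h.uniq _ _ _ hb hi)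
    · simp
  have e1 : Nm q u (fun g => a g ^ 2 * D g) =
      ∑ i, Nm q (on (B i) u) fun g => a g ^ 2 * on (B i) D g := by
    simp only [Nm_eq]; rw [sum_comm]
    refine sum_congr rfl fun g _ => ?_
    by_cases hg : D g = 0
    · simp [on, hg]
    rw [← one g (a g ^ 2 * D g * P1 q u g) hg]
    refine sum_congr rfl fun i _ => ?_
    by_cases hb : B i g
    · rw [if_pos hb, h.P1_eq hu hs hb, on, if_pos hb]
    · simp [on, hb]
  have e2 : Bf q u (fun g => a g * D g) (fun g => a g * D g) =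
      ∑ i, Bf q (on (B i) u) (fun g => a g * on (B i) D g) fun g => a g * on (B i) D g := by
    unfold Bf; rw [sum_comm (s := univ (α := ι))]
    refine sum_congr rfl fun g _ => ?_
    rw [sum_comm]
    refine sum_congr rfl fun g' _ => ?_
    by_cases hg : D g = 0
    · simp [on, hg]
    by_cases hg' : D g' = 0
    · simp [on, hg']
    obtain ⟨i, hi⟩ := hD g hg
    rw [sum_eq_single i]
    · by_cases hb : B i g'
      · simp only [on, if_pos hi, if_pos hb]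
        rw [h.P2_in hu hs hi hb, h.P1_eq hu hs hi, h.P1_eq hu hs hb]
      · obtain ⟨j, hj⟩ := hD g' hg'
        rw [h.P2_out hu hs (i := i) (j := j) (fun e => hb (by rw [e]; exact hj)) hi hj]
        simp [on, hb]
    · intro j _ hj
      have : ¬ B j g := fun hb => hj (h.uniq _ _ _ hb hi)
      simp [on, this]
    · simp
  have e3 : ∑ g, (a g * D g) ^ 2 * P1 q u g ^ 2 =
      ∑ i, ∑ g, (a g * on (B i) D g) ^ 2 * P1 q (on (B i) u) g ^ 2 := by
    rw [sum_comm]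
    refine sum_congr rfl fun g _ => ?_
    by_cases hg : D g = 0
    · simp [on, hg]
    rw [← one g ((a g * D g) ^ 2 * P1 q u g ^ 2) hg]
    refine sum_congr rfl fun i _ => ?_
    by_cases hb : B i g
    · rw [if_pos hb, h.P1_eq hu hs hb, on, if_pos hb]
    · simp [on, hb]
  rw [e1, e2, e3, mul_sum, ← sum_add_distrib]
  exact sum_le_sum fun i _ => H i a ha

end Crest.Agent.N337.Pc
end

-- ▼ part N337/Pc/Loop

/-!
# Row 337, block (c): the interface of the peel in the loop model (helper78)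
-/

set_option autoImplicit false
set_option linter.unusedSectionVars false

namespace Crest.Agent.N337.Pc

open Finset Crest.Agent.N337.Op Crest.Agent.N337.Gas Crest.Agent.N337.Rep Crest.Agent.N337.LY0

section gen
variable {Γ : Type} [Fintype Γ] [DecidableEq Γ] {q : Finset Γ → ℝ} {Ξ : Type} [Fintype Ξ]
  [DecidableEq Ξ] {P : Ξ → ℝ} {L : Ξ → Finset Γ} {w : Finset Γ}

lemma sum_off_eq (w X : Finset Γ) (al : Γ → ℝ) : ∑ g ∈ X, off (· ∈ w) al g =
    ∑ g, al g * if g ∈ w then 0 else if g ∈ X then 1 else 0 := by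
  rw [← univ_inter X, ← sum_ite_mem]
  refine sum_congr rfl fun g _ => ?_
  by_cases h1 : g ∈ w <;> by_cases h2 : g ∈ X <;> simp [off, h1, h2]

lemma up_eq (e : sh q w = qP P L) (g : Γ) :
    up q w g = ex P fun ξ => if g ∈ w then 0 else if g ∈ L ξ then 1 else 0 := by
  unfold up; rw [e]; split_ifs <;> simp [ex, qP]

lemma up2_eq' (e : sh q w = qP P L) (g g' : Γ) : up2 q w g g' = ex P fun ξ =>
    (if g ∈ w then 0 else if g ∈ L ξ then 1 else 0) *
      if g' ∈ w then 0 else if g' ∈ L ξ then 1 else 0 := by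
  unfold up2; rw [e]
  by_cases hg : g ∈ w
  · simp [hg, ex]
  by_cases hg' : g' ∈ w
  · simp [hg', ex]
  simp only [hg, hg', or_self, if_false, qP, ex]
  refine sum_congr rfl fun ξ _ => ?_
  by_cases h1 : g ∈ L ξ <;> by_cases h2 : g' ∈ L ξ <;> simp [h1, h2, insert_subset_iff]

lemma ex_qP (e : sh q w = qP P L) (al : Γ → ℝ) :
    ex P (fun ξ => ∑ g ∈ L ξ, off (· ∈ w) al g) = Phb q al w := by
  simp only [sum_off_eq]
  rw [ex_sum', Phb]
  exact sum_congr rfl fun g _ => by rw [ex_mul, up_eq e]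

lemma var_qP (hP : Pr P) (e : sh q w = qP P L) (al : Γ → ℝ) :
    var P (fun ξ => ∑ g ∈ L ξ, off (· ∈ w) al g) =
      Off q al w + ∑ g, al g ^ 2 * (up q w g - up q w g ^ 2) := by
  set I : Γ → Ξ → ℝ := fun g ξ => if g ∈ w then 0 else if g ∈ L ξ then 1 else 0 with hI
  have h3 : ∀ g ξ, I g ξ ^ 2 = I g ξ := fun g ξ => by simp only [hI]; split_ifs <;> norm_num
  rw [hP.var_eq, ex_qP e, nsq_eq_ex, Phb, sq_sum_split]
  simp only [sum_off_eq, sq_sum_split]
  rw [ex_add, ex_sum', ex_sum']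
  have e1 : ∀ g, ex P (fun ξ => (al g * I g ξ) ^ 2) = al g ^ 2 * up q w g := fun g => by
    rw [up_eq e, ← ex_mul]; congr 1; funext ξ; rw [mul_pow, h3]
  have e2 : ∀ g, ex P (fun ξ => ∑ g' ∈ univ.erase g, al g * I g ξ * (al g' * I g' ξ)) =
      ∑ g' ∈ univ.erase g, al g * al g' * up2 q w g g' := fun g => by
    rw [ex_sum']
    exact sum_congr rfl fun g' _ => by rw [up2_eq' e, ← ex_mul]; congr 1; funext ξ; ring
  have e4 : ∑ g, ∑ g' ∈ univ.erase g, al g * up q w g * (al g' * up q w g') =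
      ∑ g, ∑ g' ∈ univ.erase g, al g * al g' * (up q w g * up q w g') :=
    sum_congr rfl fun g _ => sum_congr rfl fun g' _ => by ring
  have e5 : ∑ g, (al g * up q w g) ^ 2 = ∑ g, al g ^ 2 * up q w g ^ 2 :=
    sum_congr rfl fun g _ => by ring
  simp only [hI] at e1 e2
  simp only [e1, e2, e4, e5, Off, mul_sub, sum_sub_distrib]
  ring

end gen

variable {Λ : Type} [Fintype Λ] [DecidableEq Λ] {T : ℕ} [NeZero T] {ex ey : Fin T → Λ}
  {p : Fin T → ℝ} {u D : Lp T Λ → ℝ} {w : Finset (Lp T Λ)}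

lemma pr_Pw (hp : ∀ s, 0 ≤ p s ∧ p s ≤ 1) : Pr (Pw p) := ⟨Pw_nonneg hp, sum_Pw p⟩


lemma up_qq (h : qq ex ey p w ≠ 0) (g : Lp T Λ) : up (qq ex ey p) w g = TK.Up ex ey p w g := by
  rw [up, sh_qq h]; rfl

lemma U_eq (h : qq ex ey p w ≠ 0) (c : Lp T Λ → ℝ) : TK.U ex ey p c w = Phb (qq ex ey p) c w :=
  ex_qP (sh_qq h) c

lemma ex_U (c : Lp T Λ → ℝ) :
    Op.ex (nu (qq ex ey p) u) (TK.U ex ey p c) = Nm (qq ex ey p) u c :=
  ex_congr fun _ hw => U_eq (nu_supp hw).1 c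

/-- the two bounds of block TK give the interface bound. -/
theorem tk_of {S : Lp T Λ → Prop} {κ : ℝ} (hp : ∀ s, 0 ≤ p s ∧ p s ≤ 1)
    (ha : TK.TKa ex ey p u D S κ) (hb : TK.TKb ex ey p u D S κ) : TK (qq ex ey p) u D S κ where
  a a h := by
    have h1 := ha a h
    have e0 : (Op.ex (nu (qq ex ey p) u) fun w =>
        var (Pw (pin ex ey p w)) (TK.Ph ex ey (off (· ∈ w) fun g => a g * D g))) =
        Op.ex (nu (qq ex ey p) u) fun w => Off (qq ex ey p) (fun g => a g * D g) w +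
          ∑ g, (a g * D g) ^ 2 * (up (qq ex ey p) w g - up (qq ex ey p) w g ^ 2) :=
      ex_congr fun w hw => var_qP (pr_Pw (pin_mem hp w)) (sh_qq (nu_supp hw).1) _
    rw [ex_U, ex_U, e0, ex_add, ex_sum', Nm_eq] at h1
    simp only [ex_mul, ex_sub, mul_sub, sum_sub_distrib] at h1
    have : ∑ g, (a g * D g) ^ 2 * P1 (qq ex ey p) u g =
      ∑ g, (a g * D g) ^ 2 * Op.ex (nu (qq ex ey p) u) fun w => up (qq ex ey p) w g := rfl
    have e : Op.ex (nu (qq ex ey p) u) (fun w => Off (qq ex ey p) (fun g => a g * D g) w) =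
      Op.ex (nu (qq ex ey p) u) (Off (qq ex ey p) fun g => a g * D g) := rfl
    linarith
  b a h := by
    have h1 := hb a h
    rwa [ex_U, var_congr fun w hw => U_eq (nu_supp hw).1 _] at h1


/-- rarity given an up loop is rarity in the medium of the loop. -/
lemma rare_of {g : Lp T Λ} {E : Finset (Lp T Λ) → Prop} {ε : ℝ} (hp : ∀ s, 0 ≤ p s ∧ p s ≤ 1)
    (hu : ∀ g, 0 ≤ u g)
    (h : qq ex ey p {g} ≠ 0 → Op.ex (med (qq ex ey p) u {g}) (fun w => TK.i1 (E w)) ≤ ε) :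
    TK.Rare ex ey p u g E ε := by
  have hc := cpt_qq (ex := ex) (ey := ey) hp
  unfold TK.Rare
  rw [ex_congr (g := fun w => up (qq ex ey p) w g * TK.i1 (E w)) fun w hw => by
    rw [up_qq (nu_supp hw).1, mul_comm], ex_up hc hu,
    ex_congr (g := fun w => up (qq ex ey p) w g) fun w hw => (up_qq (nu_supp hw).1 g).symm]
  change P1 _ u g * _ ≤ ε * P1 _ u g
  by_cases hg : qq ex ey p {g} = 0
  · have : P1 (qq ex ey p) u g = 0 := by
      have := sum_up (u := u) hc g fun _ => 1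
      simp only [mul_one, hg, zero_mul] at this
      rw [P1, ex_nu, this, zero_div]
    simp [this]
  · rw [mul_comm]; exact mul_le_mul_of_nonneg_right (h hg) (P1_nn hc hu g)

lemma exists_root {ξ : Fin T → Bool} {g : Lp T Λ} (hg : g ∈ L ex ey ξ) : ∃ x, (0, x) ∈ g.2 := by
  obtain ⟨v, rfl⟩ := mem_L.1 hg
  have := Arc.wind_pos (ex := ex) (ey := ey) ξ v
  obtain ⟨x, hx⟩ := card_pos.1 this
  exact ⟨x, mem_obv.2 (mem_filter.1 hx).2⟩

/-- loops with roots in `S`: at most `|S|` of them. -/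
lemma card_L_le (ξ : Fin T → Bool) {S : Finset Λ} {Q : Finset (Lp T Λ)}
    (hQ : ∀ g ∈ Q, ∀ x, (0, x) ∈ g.2 → x ∈ S) : (L ex ey ξ ∩ Q).card ≤ S.card := by
  refine le_trans (card_le_card fun g hg => ?_) (card_image_le (s := S) (f := fun x => lp ex ey ξ (0, x)))
  obtain ⟨h1, h2⟩ := mem_inter.1 hg
  obtain ⟨x, hx⟩ := exists_root h1
  exact mem_image.2 ⟨x, hQ g h2 x hx, (eq_lp h1 hx).symm⟩

lemma rep_qq (hp : ∀ s, 0 ≤ p s ∧ p s ≤ 1) {S : Finset Λ} {Q : Finset (Lp T Λ)}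
    (hQ : ∀ g ∈ Q, ∀ x, (0, x) ∈ g.2 → x ∈ S) : Rep (qq ex ey p) Q S.card :=
  rep_qP (pr_Pw hp) _ fun ξ => card_L_le ξ hQ

lemma box_qq {ι : Type} [Fintype ι] [DecidableEq ι] {B : ι → Finset Λ} (hB : Apart ex ey B)
    (hp : ∀ s, 0 ≤ p s ∧ p s ≤ 1) : Box (qq ex ey p) fun i => In (B i) :=
  ⟨cpt_qq hp, hB.uniq, hB.qq_prod hp⟩

end Crest.Agent.N337.Pc
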