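import Crest.Agent.N337.Pc.PeelA
import Crest.Agent.N337.Gas.Loop

/-!
# Row 337, block (c): the peel on a gas

`peel_core` bounds the variance of `E[F | top colour]`; `peel_var`, `peel_blind`, `peel_low` are the
forms used by the level induction.  The residual is `(μ(S) + 1_S)(F - c)²`.
-/

set_option autoImplicit false
set_option linter.unusedSectionVars false

namespace Crest.Agent.N337.Pc

open Finset Crest.Agent.N337.Op Crest.Agent.N337.Gas

variable {Γ : Type} [Fintype Γ] [DecidableEq Γ] {Ξ : Type} [Fintype Ξ]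
  {P : Ξ → ℝ} {L : Ξ → Finset Γ} {u D : Γ → ℝ} {A : Finset Γ} {G : ℕ → Finset Γ → Prop}
  {κ κb : ℝ}

/-- the two-colour gas. -/
noncomputable abbrev mu (P : Ξ → ℝ) (L : Ξ → Finset Γ) (u D : Γ → ℝ) : Finset (Γ × Bool) → ℝ :=
  nu (qL (qP P L)) (two u D)

open Classical in
/-- indicator of the residual set `S`: the top colour is off the bottom rung. -/
noncomputable def bS (G : ℕ → Finset Γ → Prop) (X : Finset (Γ × Bool)) : ℝ :=
  Op.ind (fun X => ¬ G 0 (fg (hi X))) X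

lemma bS_eq (G : ℕ → Finset Γ → Prop) (X : Finset (Γ × Bool)) :
    bS G X = Pe.bad G 0 (fg (hi X)) := by
  simp only [bS, Op.ind, Pe.bad, ite_not]

lemma pr_mu (hP : Pr P) (hu : ∀ g, 0 ≤ u g) (hD : ∀ g, 0 ≤ D g) : Pr (mu P L u D) := by
  classical exact pr_nu (cpt_qP hP L).qL (two_nn hu hD)

lemma sq_cov {Ω : Type} [Fintype Ω] [DecidableEq Ω] {μ : Ω → ℝ} (hμ : Pr μ) (Φ F : Ω → ℝ) :
    ex μ (fun ω => Φ ω * (F ω - ex μ F)) ^ 2 ≤ var μ Φ * var μ F := by
  have h := Op.cs hμ.nn (fun ω => F ω - ex μ F) fun ω => Φ ω - ex μ Φ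
  rw [ip_sub_right, ip_const, hμ.ex_center, mul_zero, sub_zero, ip_eq_ex] at h
  simp only [mul_comm (Φ _)]
  exact h.trans_eq (mul_comm _ _)

section
variable [DecidableEq Ξ]

/-- the law of the top colour. -/
noncomputable abbrev nuA (P : Ξ → ℝ) (L : Ξ → Finset Γ) (u D : Γ → ℝ) : Finset Γ → ℝ :=
  Pe.nu (Pe.mix (WW P L u D) (OO L) D)

lemma ex_mu_med (hP : Pr P) (hu : ∀ g, 0 ≤ u g) (hD : ∀ g, 0 ≤ D g) (φ : Finset (Γ × Bool) → ℝ) :
    ex (mu P L u D) φ = ex (nuA P L u D) fun A => ex (med (qP P L) u A) fun w => φ (lab w A) := by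
  rw [ex_mu hP hu hD]
  exact ex_congr fun A hA => ex_cl_w hP hu hD (Pe.zz_ne hA) fun w => φ (lab w A)

lemma pr_med' (hP : Pr P) (hu : ∀ g, 0 ≤ u g) (h : nuA P L u D A ≠ 0) : Pr (med (qP P L) u A) :=
  pr_med (cpt_qP hP L) hu (q_ne hP (Pe.zz_ne h))

lemma ex_mu_hi (hP : Pr P) (hu : ∀ g, 0 ≤ u g) (hD : ∀ g, 0 ≤ D g) (φ : Finset Γ → ℝ) :
    ex (mu P L u D) (fun X => φ (fg (hi X))) = ex (nuA P L u D) φ := by
  rw [ex_mu_med hP hu hD]
  exact ex_congr fun A hA => by simp only [fg_hi_lab]; exact (pr_med' hP hu hA).ex_const _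

lemma pr_nuA (hP : Pr P) (hu : ∀ g, 0 ≤ u g) (hD : ∀ g, 0 ≤ D g ∧ D g ≤ 1) :
    Pr (nuA P L u D) where
  nn := Pe.nu_nn (Pe.mix_nn (WW_nn hP hu fun g => (hD g).1) hD)
  one := by
    have := ex_mu_hi (L := L) hP hu (fun g => (hD g).1) fun _ => 1
    rw [(pr_mu hP hu fun g => (hD g).1).ex_const] at this
    simpa only [ex, mul_one] using this.symm

/-- the conditional expectation given the top colour is the mean over the medium. -/
theorem ce_hi (hP : Pr P) (hu : ∀ g, 0 ≤ u g) (hD : ∀ g, 0 ≤ D g) (F : Finset (Γ × Bool) → ℝ)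
    {X : Finset (Γ × Bool)} (hX : mu P L u D X ≠ 0) : ap (ce (mu P L u D) hi) F X =
      ex (med (qP P L) u (fg (hi X))) fun w => F (lab w (fg (hi X))) := by
  have hμ := pr_mu (L := L) hP hu hD
  have hm := mass_ne (π := hi) hμ.nn hX
  have key : ∀ F : Finset (Γ × Bool) → ℝ, ∑ Y, (if hi Y = hi X then mu P L u D Y * F Y else 0) =
      nuA P L u D (fg (hi X)) * ex (med (qP P L) u (fg (hi X))) fun w => F (lab w (fg (hi X))) := by
    intro F
    have := ex_mu_med (L := L) hP hu hD fun Y => if hi Y = hi X then F Y else 0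
    rw [ex, ex, sum_eq_single (fg (hi X)) (fun A _ h => by simp [hi_eq_iff, h, ex]) (by simp)] at this
    simpa only [mul_ite, mul_zero, hi_eq_iff, if_true] using this
  have h1 := key fun _ => 1
  simp only [mul_one] at h1
  rw [← mass] at h1
  have hA : nuA P L u D (fg (hi X)) ≠ 0 := left_ne_zero_of_mul (h1 ▸ hm)
  rw [(pr_med' hP hu hA).ex_const, mul_one] at h1
  rw [ap_ce_ae hμ.nn _ hX]
  refine mul_left_cancel₀ hm ?_
  rw [mass_mul_ex_cond hm, key, h1]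

lemma var_Phi (hP : Pr P) (hu : ∀ g, 0 ≤ u g) (hD : ∀ g, 0 ≤ D g)
    (h : Pe.zz (WW P L u D) (OO L) A ≠ 0) {al : Γ → ℝ} (ha : ∀ g, al g ≠ 0 → g ∉ A) :
    var (Pe.cl (WW P L u D) (OO L) A) (fun e => ∑ g ∈ OO L e \ A, al g) =
      Nm (sh (qP P L) A) (off (· ∈ A) u) (fun g => al g ^ 2) +
        Bf (sh (qP P L) A) (off (· ∈ A) u) al al -
        ∑ g, al g ^ 2 * P1 (sh (qP P L) A) (off (· ∈ A) u) g ^ 2 := by
  have hq := q_ne hP h
  have lin : ∀ (μ : Ξ × Finset Γ → ℝ) (c : Γ → ℝ) (f : Γ → Ξ × Finset Γ → ℝ),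
      ex μ (fun e => ∑ g, c g * f g e) = ∑ g, c g * ex μ (f g) := fun μ c f => by
    simp only [ex, mul_sum]; rw [sum_comm]; simp only [mul_left_comm]
  have e1 : ∀ g, al g * ex (Pe.cl (WW P L u D) (OO L) A) (JJ L A {g}) =
      al g * P1 (sh (qP P L) A) (off (· ∈ A) u) g := fun g => by
    by_cases h0 : al g = 0
    · rw [h0, zero_mul, zero_mul]
    · rw [ex_cl hP hu hD h]; simp only [cE_up hq (ha g h0)]; rfl
  have e2 : ∀ g g', al g * (al g' * ex (Pe.cl (WW P L u D) (OO L) A) (JJ L A {g, g'})) =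
      al g * (al g' * P2 (sh (qP P L) A) (off (· ∈ A) u) g g') := fun g g' => by
    by_cases h0 : al g = 0
    · rw [h0, zero_mul, zero_mul]
    by_cases h0' : al g' = 0
    · rw [h0', zero_mul, zero_mul]
    · rw [ex_cl hP hu hD h]; simp only [cE_up2 hq (ha g h0) (ha g' h0')]; rfl
  have e3 : (fun e => (∑ g ∈ OO L e \ A, al g) ^ 2) =
      fun e => ∑ g, al g * ∑ g', al g' * JJ L A {g, g'} e := by
    funext e
    rw [sum_JJ, sq, sum_mul_sum]
    simp only [mul_sum, ← JJ_mul]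
    exact sum_congr rfl fun g _ => sum_congr rfl fun g' _ => by ring
  have e4 : Nm (sh (qP P L) A) (off (· ∈ A) u) (fun g => al g ^ 2) =
      ∑ g, al g ^ 2 * P1 (sh (qP P L) A) (off (· ∈ A) u) g := by
    simp only [Nm, Phb, P1, ex, mul_sum]; rw [sum_comm]; simp only [mul_left_comm]
  rw [(Pe.pr_cl (WW_nn hP hu hD) h).var_eq, nsq_eq_ex, e3, lin, e4]
  simp only [sum_JJ, lin, e1]
  rw [sq, sum_mul_sum, ← sum_sub_distrib, Bf, ← sum_add_distrib, ← sum_sub_distrib]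
  refine sum_congr rfl fun g _ => ?_
  rw [mul_sum, ← sum_sub_distrib, ← add_sum_erase _ _ (mem_univ g), pair_eq_singleton, e1,
    sum_congr rfl fun g' _ => (by rw [e2]; ring : _ = al g * al g' * (P2 (sh (qP P L) A)
      (off (· ∈ A) u) g g' - P1 (sh (qP P L) A) (off (· ∈ A) u) g *
        P1 (sh (qP P L) A) (off (· ∈ A) u) g'))]
  ring

lemma ex_cl_Nm (hP : Pr P) (hu : ∀ g, 0 ≤ u g) (hD : ∀ g, 0 ≤ D g)
    (h : Pe.zz (WW P L u D) (OO L) A ≠ 0) {c : Γ → ℝ} (hc : ∀ g, c g ≠ 0 → g ∉ A) :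
    ex (Pe.cl (WW P L u D) (OO L) A) (fun e => ∑ g ∈ OO L e \ A, c g) =
      Nm (sh (qP P L) A) (off (· ∈ A) u) c := by
  rw [ex_cl hP hu hD h]; simp only [cE_Phi (q_ne hP h) hc]; rfl

lemma mul_off {a : Γ → ℝ} (ha : ∀ g, a g ≠ 0 → g ∉ A) (f : ℝ → ℝ) (hf : f 0 = 0) :
    (fun g => f (a g) * off (· ∈ A) D g) = fun g => f (a g) * D g := by
  funext g
  by_cases h0 : a g = 0
  · rw [h0, hf, zero_mul, zero_mul]
  · rw [off, if_neg (ha g h0)]

lemma Lad.hyp (hL : Lad P L u D G 26 (1 / 10 ^ 9) κ κb) (hκ : κ ≤ 1 / 5) :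
    Pe.Hyp (Pe.mix (WW P L u D) (OO L) D) G := by
  have hP := hL.pr
  refine Pe.Hyp.of_cl (WW_nn hP hL.u0 hL.D0) (fun g => ⟨hL.D0 g, hL.D1 g⟩) (fun i hi A hA h => ?_)
    (fun A hA h => ?_) fun A a hA h ha => ?_
  · rw [ex_cl_av hP hL.u0 hL.D0 (Pe.zz_ne h)]
    convert hL.h1 i hi A hA (q_ne hP (Pe.zz_ne h)) (Pe.D_ne h) using 3
    simp only [Op.ind, Pe.bad, ite_not]
  · rw [ex_cl_av hP hL.u0 hL.D0 (Pe.zz_ne h)]
    convert hL.h2 A hA (q_ne hP (Pe.zz_ne h)) (Pe.D_ne h) using 2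
    funext B; simp only [Op.ind, Pe.bad, ite_not]
  · have h1 := hL.tkt A hA (q_ne hP (Pe.zz_ne h)) (Pe.D_ne h) a fun g hg => (ha g hg).2
    have ha' : ∀ g, a g ≠ 0 → g ∉ A := fun g hg => (ha g hg).1
    simp only [congrFun (mul_off (D := D) ha' (fun x => x) rfl),
      congrFun (mul_off (D := D) ha' (fun x => x ^ 2) (by norm_num))] at h1
    have z := Pe.zz_ne h
    rw [var_Phi hP hL.u0 hL.D0 z fun g hg => ha' g (left_ne_zero_of_mul hg)]
    have e1 := ex_cl_Nm hP hL.u0 hL.D0 z (c := fun g => (a g * D g) ^ 2)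
      fun g hg => ha' g fun h0 => hg (by simp [h0])
    have e2 := ex_cl_Nm hP hL.u0 hL.D0 z (c := fun g => a g ^ 2 * D g)
      fun g hg => ha' g fun h0 => hg (by simp [h0])
    have n0 : 0 ≤ ex (Pe.cl (WW P L u D) (OO L) A) fun e => ∑ g ∈ OO L e \ A, a g ^ 2 * D g :=
      ex_nn (Pe.cl_nn (WW_nn hP hL.u0 hL.D0) A) fun _ =>
        sum_nonneg fun g _ => mul_nonneg (sq_nonneg _) (hL.D0 g)
    have e3 : (fun e => ∑ g ∈ OO L e \ A, a g ^ 2 * (D g ^ 2 + 1 / 5 * D g)) = fun e =>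
        ∑ g ∈ OO L e \ A, (a g * D g) ^ 2 + 1 / 5 * ∑ g ∈ OO L e \ A, a g ^ 2 * D g := by
      funext e; rw [mul_sum, ← sum_add_distrib]; exact sum_congr rfl fun g _ => by ring
    rw [← e2] at h1
    rw [e3, ex_add, ex_mul, e1]
    nlinarith [mul_le_mul_of_nonneg_right hκ n0]

end

/-- the residual given the top colour is the mean variance in the medium. -/
theorem res_hi (hP : Pr P) (hu : ∀ g, 0 ≤ u g) (hD : ∀ g, 0 ≤ D g) (F : Finset (Γ × Bool) → ℝ) :
    nsq (mu P L u D) (fun X => F X - ap (ce (mu P L u D) hi) F X) = ex (mu P L u D) fun X =>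
      var (med (qP P L) u (fg (hi X))) fun w => F (lab w (fg (hi X))) := by
  classical
  rw [nsq_congr fun X hX => by rw [ce_hi hP hu hD F hX], nsq_eq_ex, ex_mu_med hP hu hD,
    ex_mu_hi hP hu hD fun A => var (med (qP P L) u A) fun w => F (lab w A)]
  simp only [fg_hi_lab]; rfl

/-- **peel of the top colour.** -/
theorem peel_core (hL : Lad P L u D G 26 (1 / 10 ^ 9) κ κb) (hκ : κ ≤ 1 / 5) (hb : 0 ≤ κb)
    (F : Finset (Γ × Bool) → ℝ) (c : ℝ) :
    var (mu P L u D) (ap (ce (mu P L u D) hi) F) ≤ 22 * Dhi (mu P L u D) F +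
      22 * κb * nsq (mu P L u D) (fun X => F X - ap (ce (mu P L u D) hi) F X) +
      200 * ex (mu P L u D) fun X => (ex (mu P L u D) (bS G) + bS G X) * (F X - c) ^ 2 := by
  classical
  have hP := hL.pr
  have hu := hL.u0
  have hD := hL.D0
  have hW := WW_nn (L := L) hP hu hD
  have hν := pr_nuA (L := L) hP hu fun g => ⟨hD g, hL.D1 g⟩
  have hLad : Pe.Lad G := ⟨fun i A R h => hL.down i R A h, hL.mono⟩
  set H : Finset Γ → ℝ := fun A => ex (med (qP P L) u A) fun w => F (lab w A) with hH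
  have h1 := Pe.peel hLad (hL.hyp hκ) hν H c
  have h2 := Pe.resp0 (O := OO L) hW hD (G 1) hb (fun e A => F (lab e.2 A)) fun A a h ha => by
    have z := Pe.zz_ne h
    have hq := q_ne hP z
    have ha' : ∀ g, a g ≠ 0 → g ∉ A := fun g hg => (ha g hg).1
    by_cases h0 : ∀ g, a g = 0
    · simp [h0, ex]
    obtain ⟨g0, hg0⟩ := not_forall.1 h0
    have hA := hLad.le (by norm_num : 1 ≤ 27) (hL.down _ _ _ (subset_insert _ _) (ha g0 hg0).2)
    have h3 := hL.tkb A hA hq (Pe.D_ne h) a fun g hg => hLad.le (by norm_num) (ha g hg).2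
    rw [mul_off ha' (fun x => x) rfl, mul_off ha' (fun x => x ^ 2) (by norm_num)] at h3
    rw [ex_cl_w hP hu hD z fun w => F (lab w A), var_cl_w hP hu hD z fun w => F (lab w A),
      ex_cl_Nm hP hu hD z fun g hg => ha' g fun h0 => hg (by simp [h0]), ex_cl hP hu hD z]
    simp only [cE_mul, cE_Phi hq fun g (hg : a g * D g ≠ 0) => ha' g (left_ne_zero_of_mul hg)]
    exact (sq_cov (pr_med (cpt_qP hP L) hu hq) _ _).trans
      (mul_le_mul_of_nonneg_right h3 (var_nn (pr_med (cpt_qP hP L) hu hq).nn _))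
  have e1 : var (mu P L u D) (ap (ce (mu P L u D) hi) F) = var (nuA P L u D) H := by
    rw [var_congr fun X hX => ce_hi hP hu hD F hX, var, var, nsq_eq_ex, nsq_eq_ex,
      ex_mu_hi hP hu hD H, ex_mu_hi hP hu hD fun A => (H A - ex (nuA P L u D) H) ^ 2]
  have e2 : Pe.DG (nuA P L u D) (G 1) H = Pe.DG (nuA P L u D) (G 1)
      fun A => ex (Pe.cl (WW P L u D) (OO L) A) fun e => F (lab e.2 A) := by
    refine ex_congr fun A hA => ?_
    have z : ∀ B ⊆ A, Pe.zz (WW P L u D) (OO L) B ≠ 0 := fun B hB h0 => by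
      refine Pe.zz_ne hA (le_antisymm (h0 ▸ ?_) (Pe.zz_nn hW A))
      rw [Pe.zz_eq, Pe.zz_eq]
      refine sum_le_sum fun e _ => ?_
      by_cases h : A ⊆ OO L e
      · rw [if_pos h, if_pos (hB.trans h)]
      · rw [if_neg h]; split_ifs; exacts [hW e, le_rfl]
    congr 1
    refine sum_congr rfl fun g _ => ?_
    beta_reduce
    rw [ex_cl_w hP hu hD (z A Subset.rfl) fun w => F (lab w A),
      ex_cl_w hP hu hD (z _ (erase_subset g A)) fun w => F (lab w (A.erase g))]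
  have e3 : ex (nuA P L u D) (fun A => var (Pe.cl (WW P L u D) (OO L) A) fun e => F (lab e.2 A)) =
      nsq (mu P L u D) fun X => F X - ap (ce (mu P L u D) hi) F X := by
    rw [res_hi hP hu hD, ex_mu_hi hP hu hD fun A => var (med (qP P L) u A) fun w => F (lab w A)]
    exact ex_congr fun A hA => var_cl_w hP hu hD (Pe.zz_ne hA) fun w => F (lab w A)
  have h3 : ex (nuA P L u D) (fun A => ex (Pe.cl (WW P L u D) (OO L) A) fun e =>
      if G 1 A then ∑ g ∈ A, (F (lab e.2 A) - F (lab e.2 (A.erase g))) ^ 2 else 0) ≤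
      Dhi (mu P L u D) F := by
    rw [Dhi, ex_mu hP hu hD]
    refine ex_mono hν.nn fun A => ex_mono (Pe.cl_nn hW A) fun e => ?_
    simp only [sum_hi_lab, lab_erase]
    split_ifs; exacts [le_rfl, sum_nonneg fun _ _ => sq_nonneg _]
  have e4 : ex (mu P L u D) (bS G) = ex (nuA P L u D) (Pe.bad G 0) := by
    rw [← ex_mu_hi hP hu hD]; congr 1; funext X; exact bS_eq G X
  have h4 : ex (nuA P L u D) (fun A => (ex (nuA P L u D) (Pe.bad G 0) + Pe.bad G 0 A) *
      (H A - c) ^ 2) ≤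
      ex (mu P L u D) fun X => (ex (mu P L u D) (bS G) + bS G X) * (F X - c) ^ 2 := by
    rw [ex_mu_med hP hu hD, e4]
    refine ex_mono_ae hν.nn fun A hA => ?_
    have hp := pr_med' hP hu hA
    have := hp.sq_ex_le fun w => F (lab w A) - c
    rw [ex_sub, hp.ex_const] at this
    simp only [bS_eq, fg_hi_lab]
    rw [ex_mul]
    exact mul_le_mul_of_nonneg_left this (add_nonneg (ex_nn hν.nn (Pe.bad_nn 0)) (Pe.bad_nn _ _))
  rw [← e2, e3] at h2
  rw [e1]
  linarith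

/-- (i) local Poincaré inequality one level up. -/
theorem peel_var (hL : Lad P L u D G 26 (1 / 10 ^ 9) κ κb) (hκ : κ ≤ 1 / 5) (hb : 0 ≤ κb)
    (F : Finset (Γ × Bool) → ℝ) (c : ℝ) :
    var (mu P L u D) F ≤
      (1 + 22 * κb) * nsq (mu P L u D) (fun X => F X - ap (ce (mu P L u D) hi) F X) +
      22 * Dhi (mu P L u D) F +
      200 * ex (mu P L u D) fun X => (ex (mu P L u D) (bS G) + bS G X) * (F X - c) ^ 2 := by
  classical
  have hμ := pr_mu (L := L) hL.pr hL.u0 hL.D0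
  rw [(proj_ce hμ.nn hi).var_split hμ F]
  linarith [peel_core hL hκ hb F c]

lemma tot_two (u D : Γ → ℝ) : tot (two u D) = fun g => u g + D g := by
  funext g; simp [tot, two, add_comm]

/-- (ii) label-blind functions. -/
theorem peel_blind (hL : Lad P L u D G 26 (1 / 10 ^ 9) κ κb) (hκ : κ ≤ 1 / 5) (hb : 0 ≤ κb)
    (F : Finset Γ → ℝ) (c : ℝ) :
    var (nu (qP P L) fun g => u g + D g) F ≤
      (1 + 22 * κb) * ex (mu P L u D) (fun X =>
        var (med (qP P L) u (fg (hi X))) fun w => F (fg (hi X) ∪ w)) +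
      22 * Dir (nu (qP P L) fun g => u g + D g) F +
      200 * ex (mu P L u D) fun X => (ex (mu P L u D) (bS G) + bS G X) * (F (fg X) - c) ^ 2 := by
  classical
  have h := peel_var hL hκ hb (fun X => F (fg X)) c
  have h1 : Dhi (mu P L u D) (fun X => F (fg X)) ≤ Dir (mu P L u D) fun X => F (fg X) :=
    ex_mono (pr_mu hL.pr hL.u0 hL.D0).nn fun X =>
      sum_le_sum_of_subset_of_nonneg (filter_subset _ _) fun _ _ _ => sq_nonneg _
  rw [res_hi hL.pr hL.u0 hL.D0, var_forget, tot_two] at h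
  rw [Dir_forget, tot_two] at h1
  simp only [fg_lab] at h
  linarith


theorem peel : PeelStmt := fun _ _ _ _ _ _ _ _ _ _ _ hb hL F c => peel_core hL le_rfl hb F c

/-! ### (iv) loops -/

section loops
open Crest.Agent.N337.Rep Crest.Agent.N337.LY0
variable {Λ : Type} [Fintype Λ] [DecidableEq Λ] {T : ℕ} [NeZero T] {ex ey : Fin T → Λ}
  {p : Fin T → ℝ} {x : Finset (Lp T Λ)}




end loops

end Crest.Agent.N337.Pc
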